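import Vale.Agent.P032.H240.W.MdW

/-!
# P032: the wild model, third structure: crossing rule and walls in cells

`MdG M`, over `M : MdW K NP NW nb`; `M.B x i 5 j` = no point of the unit circle about `x` has its palette inside `{i, j}`
(as in `H993.MdE`).

* `xr` : 598's X-rule, `xp`, `xq` its tables of cells (`e = 1` the tangent ray `r`, `e = 0` the ray `r + 3 K`; `m = 0` a
  third colour inside the circle about `x + u(r)`, `m = 1` in the middle zone);
* `wc` : the colours of a cell are connected by walls; `wu` : the same for a cell and the next one.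
-/

namespace Vale.Agent.P032.H374

open Vale.Agent.P032.H820.K (df ad)
open Vale.Agent.P032.H240.W (MdW)

/-- the cell `(k, d)` (`d` = difference to `s`) of `x + u(s)`, `D = s - r`, for the colour `p` of the crossing rule -/
def xp (K e D k d : ℕ) : Bool :=
  bif (Nat.ble (Nat.succ D) (Nat.mul 3 K) && Nat.beq e 1) || (Nat.ble (Nat.succ (Nat.mul 3 K)) D && Nat.beq e 0) then
    (bif Nat.beq k 0 then Nat.ble (Nat.mul 3 K) d else
      Nat.ble (Nat.succ (Nat.mul 3 K)) d || (Nat.beq d 0 && (Nat.beq k 1 || Nat.beq k 2)) ||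
        (Nat.beq d (Nat.mul 3 K) && (Nat.beq k 2 || Nat.beq k 3)))
  else
    (bif Nat.beq k 0 then Nat.ble (Nat.succ d) (Nat.mul 3 K) else
      (Nat.ble 1 d && Nat.ble (Nat.succ d) (Nat.mul 3 K)) || (Nat.beq d 0 && Nat.beq k 3) ||
        (Nat.beq d (Nat.mul 3 K) && Nat.beq k 1))

/-- the cell `(k, d)` of `x + u(r)` for the colour `q` of the crossing rule -/
def xq (K e m k d : ℕ) : Bool :=
  bif Nat.beq m 0 then
    (bif Nat.beq k 0 then Nat.ble (Nat.mul 3 K) d else
      Nat.ble (Nat.succ (Nat.mul 3 K)) d || Nat.beq d (bif Nat.beq e 1 then Nat.mul 3 K else 0))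
  else
    (bif Nat.beq k 0 then Nat.ble (Nat.succ d) (Nat.mul 3 K) else
      (Nat.ble 1 d && Nat.ble (Nat.succ d) (Nat.mul 3 K)) || Nat.beq d (bif Nat.beq e 1 then 0 else Nat.mul 3 K))

/-- the zone of the third colour -/
def xz (e m : ℕ) : ℕ := bif Nat.beq m 0 then (bif Nat.beq e 1 then 1 else 3) else 2

/-- the ray of the third colour -/
def xt (K e r : ℕ) : ℕ := bif Nat.beq e 1 then r else ad K r (Nat.mul 3 K)

/-- the next cell, its zone -/
def nk (k : ℕ) : ℕ := bif Nat.beq k 3 then 0 else Nat.succ k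

/-- the next cell, its number -/
def nj (K k j : ℕ) : ℕ := bif Nat.beq k 0 then ad K j 1 else j

/-- crossing rule and walls in cells -/
structure MdG {K NP NW : ℕ} {nb : ℕ → ℕ → ℕ} (M : MdW K NP NW nb) : Prop where
  /-- X-rule -/
  xr : ∀ {x s r k j k' j' e m p q}, x < NP → s < 6 * K → r < 6 * K → k < 4 → j < 6 * K → k' < 4 → j' < 6 * K →
    e < 2 → m < 2 → p < 6 → q < 6 → nb x s < NP → nb x r < NP → s ≠ r → s ≠ ad K r (3 * K) →
    xp K e (df K s r) k (df K j s) = true → xq K e m k' (df K j' r) = true →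
    M.PV k (nb x s) j p → M.PV k' (nb x r) j' q → ∃ c < 6, c ≠ p ∧ c ≠ q ∧ M.V (xz e m) x (xt K e r) c
  /-- walls in a cell -/
  wc : ∀ {k x j i l} (S : Finset ℕ), k < 4 → x < NP → j < 6 * K → i < 6 → l < 6 → i ∈ S → l ∉ S →
    M.V k x j i → M.V k x j l →
    (∃ i' < 6, ∃ l' < 6, i' ∈ S ∧ l' ∉ S ∧ M.V k x j i' ∧ M.V k x j l' ∧ M.B x i' 5 l') ∨ ∀ q < 6, M.V k x j q
  /-- walls in a cell and the next one -/
  wu : ∀ {k x j i l} (S : Finset ℕ), k < 4 → x < NP → j < 6 * K → i < 6 → l < 6 → i ∈ S → l ∉ S →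
    (M.V k x j i ∨ M.V (nk k) x (nj K k j) i) → (M.V k x j l ∨ M.V (nk k) x (nj K k j) l) →
    (∃ i' < 6, ∃ l' < 6, i' ∈ S ∧ l' ∉ S ∧ (M.V k x j i' ∨ M.V (nk k) x (nj K k j) i') ∧
      (M.V k x j l' ∨ M.V (nk k) x (nj K k j) l') ∧ M.B x i' 5 l') ∨
      ∀ q < 6, M.V k x j q ∨ M.V (nk k) x (nj K k j) q

end Vale.Agent.P032.H374
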