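import Vale.Agent.P032.H657.GermW2
import Vale.Agent.P032.S5.H360.Degree
import Vale.Agent.P032.H357.Cell

/-!
# P032: the wall graph of a germ, without a bound on the number of colours

Frame `Irr U T` with minimality of the palettes with at least four colours.  A pair `{i, l}` is not a wall at `x` if
`T y ⊆ {i, l}` for some `y` with `dist y x = 1` (`¬ Wll T x i l`).

* `brk_near` : near `x`, a point `w` with both colours of such a pair has at least four colours and the pair is broken at `w`,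
* `three_three` : if no colour of `A` has a wall with a colour outside `A`, then a point `w` near `x` with colours inside and
  outside `A` has three colours inside and three colours outside `A`,
* `germ_part` : a preconnected set near `x` with at most five colours has only colours inside or only colours outside `A`,
* `free_two` : at a point with at least four colours every colour has a wall with two other colours.
-/

open Set Filter Topology Metric

noncomputable section

namespace Vale.Agent.P032.H374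

open Vale.Agent.P032.Six Vale.Agent.P032.H657

variable {k : ℕ} {U : Fin k → Set ℂ} {T : ℂ → Set (Fin k)}

/-- all palettes with at least four colours are minimal sufficient -/
def MnK (U : Fin k → Set ℂ) (T : ℂ → Set (Fin k)) : Prop :=
  ∀ z, 4 ≤ (T z).ncard → ∀ s, s ⊆ T z → s ≠ T z →
    ¬ ∀ᶠ w in 𝓝 z, ∃ i ∈ s, w ∈ U i ∨ (w ∈ XX U ∧ i ∈ Pal U w)

/-- no palette of the unit circle is inside `{i, l}` -/
def Wll (T : ℂ → Set (Fin k)) (x : ℂ) (i l : Fin k) : Prop := ∀ y, dist y x = 1 → ¬ T y ⊆ {i, l}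

theorem Wll.symm {x : ℂ} {i l : Fin k} (hw : Wll T x i l) : Wll T x l i := by
  intro y hy hs
  rw [Set.pair_comm] at hs
  exact hw y hy hs

/-- near `x` the forbidden pairs are broken -/
theorem brk_near (h : Irr U T) (x : ℂ) : ∀ᶠ w in 𝓝 x, ∀ i l, ¬ Wll T x i l → i ∈ T w → l ∈ T w → i ≠ l →
    4 ≤ (T w).ncard ∧ ∃ q, dist q w = 1 ∧ T q = {i, l} := by
  rw [eventually_all]
  intro i
  rw [eventually_all]
  intro l
  by_cases hw : Wll T x i l
  · exact Eventually.of_forall fun w h1 => absurd hw h1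
  · obtain ⟨y, hy, hs⟩ : ∃ y, dist y x = 1 ∧ T y ⊆ {i, l} := by
      unfold Wll at hw
      push Not at hw
      exact hw
    have ht : Tendsto (fun w => y + (w - x)) (𝓝 x) (𝓝 y) := by
      have hc : Continuous fun w : ℂ => y + (w - x) := by fun_prop
      have := hc.tendsto x
      simpa using this
    filter_upwards [ht.eventually (h.nhd y)] with w h1 _ hi hl hil
    have hq : dist (y + (w - x)) w = 1 := by
      rw [dist_eq_norm] at hy ⊢
      rw [← hy]; congr 1; ring
    have hT := h.pair_of_sub hq (h.sub w hi) (h.sub w hl) (h1.trans hs)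
    refine ⟨?_, _, hq, hT⟩
    by_contra hcon
    refine h.not_sub hq (by omega) ?_
    rw [hT]
    rintro m (rfl | rfl)
    · exact hi
    · exact hl

theorem three_of (h : Irr U T) (hmin : MnK U T) {w : ℂ} {A : Set (Fin k)} {i : Fin k} (hi : i ∈ A) (hiw : i ∈ T w)
    (h4 : 4 ≤ (T w).ncard) (hb : ∀ l ∉ A, l ∈ T w → ∃ q, dist q w = 1 ∧ T q = {i, l}) :
    3 ≤ (T w ∩ A).ncard := by
  obtain ⟨d, e, hd, he, hdi, hei, hde, hdq, heq⟩ := h.two_contacts hmin h4 hiw
  have hdA : d ∈ A := by
    by_contra hcon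
    obtain ⟨q, hq, hT⟩ := hb d hcon hd
    exact hdq q hq hT
  have heA : e ∈ A := by
    by_contra hcon
    obtain ⟨q, hq, hT⟩ := hb e hcon he
    exact heq q hq hT
  have h1 : ({i, d, e} : Set (Fin k)) ⊆ T w ∩ A := by
    rintro m (rfl | rfl | rfl)
    · exact ⟨hiw, hi⟩
    · exact ⟨hd, hdA⟩
    · exact ⟨he, heA⟩
  have h2 : ({i, d, e} : Set (Fin k)).ncard = 3 := by
    rw [Set.ncard_insert_of_notMem (by simp [hdi.symm, hei.symm]), Set.ncard_pair hde]
  have h3 := Set.ncard_le_ncard h1 (Set.toFinite _)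
  omega

/-- a point near `x` with colours inside and outside `A`, no walls from `A` to the complement: three and three -/
theorem three_three (h : Irr U T) (hmin : MnK U T) (x : ℂ) : ∀ᶠ w in 𝓝 x, ∀ A : Set (Fin k),
    (∀ i ∈ A, ∀ l ∉ A, i ∈ T w → l ∈ T w → ¬ Wll T x i l) → (∃ i ∈ A, i ∈ T w) → (∃ l ∉ A, l ∈ T w) →
      3 ≤ (T w ∩ A).ncard ∧ 3 ≤ (T w \ A).ncard := by
  filter_upwards [brk_near h x] with w hw A hA ⟨i, hi, hiw⟩ ⟨l, hl, hlw⟩
  have hne : ∀ i ∈ A, ∀ l ∉ A, i ≠ l := fun i hi l hl e => hl (e ▸ hi)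
  have h4 := (hw i l (hA i hi l hl hiw hlw) hiw hlw (hne i hi l hl)).1
  refine ⟨three_of h hmin hi hiw h4 fun m hm hmw => (hw i m (hA i hi m hm hiw hmw) hiw hmw (hne i hi m hm)).2, ?_⟩
  have h5 := three_of h hmin (A := Aᶜ) hl hlw h4 fun m hm hmw => by
    have hm : m ∈ A := by simpa using hm
    obtain ⟨q, hq, hT⟩ := (hw m l (hA m hm l hl hmw hlw) hmw hlw (hne m hm l hl)).2
    exact ⟨q, hq, by rw [hT, Set.pair_comm]⟩
  rwa [← Set.sdiff_eq] at h5

/-- **The wall graph of a germ.** Near `x` a preconnected set all of whose palettes have at most two colours inside `A` or at most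
two colours outside `A`, and no walls from `A` to the complement, has only colours of `A` or none. -/
theorem germ_part (h : Irr U T) (hmin : MnK U T) (x : ℂ) : ∃ r > 0, ∀ K ⊆ ball x r, IsPreconnected K →
    ∀ A : Set (Fin k), (∀ v ∈ K, (T v ∩ A).ncard ≤ 2 ∨ (T v \ A).ncard ≤ 2) →
      (∀ v ∈ K, ∀ i ∈ A, ∀ l ∉ A, i ∈ T v → l ∈ T v → ¬ Wll T x i l) →
        (∀ v ∈ K, T v ⊆ A) ∨ (∀ v ∈ K, T v ⊆ Aᶜ) := by
  obtain ⟨r, hr, hb⟩ := Metric.eventually_nhds_iff_ball.1 (three_three h hmin x)
  refine ⟨r, hr, fun K hKr hK A h2 hA => one_side h hK (fun v _ => by rw [Set.union_compl_self]; exact subset_univ _)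
    fun v hv i hi l hl hiA hlA => ?_⟩
  obtain ⟨h3, h4⟩ := hb v (hKr hv) A (hA v hv) ⟨i, hiA, hi⟩ ⟨l, hlA, hl⟩
  rcases h2 v hv with h5 | h5 <;> omega

/-- at most five colours at every point -/
theorem five_le {w : ℂ} (h5 : (T w).ncard ≤ 5) (A : Set (Fin k)) : (T w ∩ A).ncard ≤ 2 ∨ (T w \ A).ncard ≤ 2 := by
  have := Set.ncard_inter_add_ncard_sdiff_eq_ncard (T w) A (Set.toFinite _)
  omega

/-- **Two walls.** At a point with at least four colours every colour has a wall with two other colours. -/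
theorem free_two (h : Irr U T) (hmin : MnK U T) {x : ℂ} (h4 : 4 ≤ (T x).ncard) {i : Fin k} (hi : i ∈ T x) :
    ∃ d e, d ∈ T x ∧ e ∈ T x ∧ d ≠ i ∧ e ≠ i ∧ d ≠ e ∧ Wll T x i d ∧ Wll T x i e := by
  obtain ⟨d, e, hd, he, hdi, hei, hde, hdq, heq⟩ := h.two_contacts hmin h4 hi
  exact ⟨d, e, hd, he, hdi, hei, hde, fun y hy hs => hdq y hy (h.pair_of_sub hy (h.sub x hi) (h.sub x hd) hs),
    fun y hy hs => heq y hy (h.pair_of_sub hy (h.sub x hi) (h.sub x he) hs)⟩

end Vale.Agent.P032.H374
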