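import Vale.Agent.P032.H374.GermC
import Vale.Agent.P032.H357.CiCo

/-!
# P032: the crossing rule (598's X-rule) in cells, frame `Irr U T` only

`x` a point, `y = pt x s`, `y' = pt x s'` with `s' - s` not a multiple of three, `p`, `q` colours.  `U p` accumulates at `y`
outside (inside) `S(x)`, `q` is a colour of `Pal y'`.  Then a third colour is pure at `x` along the tangent of `S(y')` on
the side `e` with `0 < cos` (`< 0`) of the angle to `s`, inside `S(y')` or in the middle zone: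

* `wp_cross` : a point `wp` of `S(y')` near `x` with `p ∉ Pal`,
* `xr_in` : `q` at `y'` away from `x` (or along the opposite tangent): inside `S(y')`,
* `xr_out` : `q` at `y'` towards `x` (or along the same tangent): the middle zone,
* `xrule_one`, `xrule_two`, `xrule_three`, `xrule_two'` : the same in the cells `Cl`.
-/

open Set Filter Topology Metric

noncomputable section

namespace Vale.Agent.P032.H374

open Vale.Agent.P032.Six Vale.Agent.P032.H892 Vale.Agent.P032.H913 Vale.Agent.P032.S5.H767 Vale.Agent.P032.H357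

variable {U : Fin 6 → Set ℂ} {T : ℂ → Set (Fin 6)} {x : ℂ} {a : ℕ → ℝ}

/-! ### points of the circle about `pt x s` near `x` -/

/-- the polar angle -/
def tw (s e τ : ℝ) : ℝ := s + e * (3 / 2 - τ)

/-- the points of the circle about `pt x s` near `x` -/
def wp (x : ℂ) (s e τ : ℝ) : ℂ := po x (2 * Real.sin (τ * (Real.pi / 3)), tw s e τ)

theorem cc_tw (s : ℝ) {e : ℝ} (he : e = 1 ∨ e = -1) (τ : ℝ) : cc s (tw s e τ) = 2 * Real.sin (τ * (Real.pi / 3)) := by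
  unfold cc tw
  rcases he with rfl | rfl
  · rw [show (s + 1 * (3 / 2 - τ) - s) * (Real.pi / 3) = Real.pi / 2 - τ * (Real.pi / 3) by ring,
      Real.cos_pi_div_two_sub]
  · rw [show (s + -1 * (3 / 2 - τ) - s) * (Real.pi / 3) = -(Real.pi / 2 - τ * (Real.pi / 3)) by ring, Real.cos_neg,
      Real.cos_pi_div_two_sub]

theorem continuous_wp (x : ℂ) (s e : ℝ) : Continuous (wp x s e) := by
  unfold wp tw
  exact (continuous_po x).comp (by fun_prop)

theorem wp_zero (x : ℂ) (s e : ℝ) : wp x s e 0 = x := by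
  unfold wp
  rw [zero_mul, Real.sin_zero, mul_zero, po_zero]

theorem sin_pos {τ : ℝ} (h0 : 0 < τ) (h1 : τ < 3) : 0 < Real.sin (τ * (Real.pi / 3)) := by
  have hpi := Real.pi_pos
  exact Real.sin_pos_of_pos_of_lt_pi (by positivity) (by nlinarith)

theorem dir_re (u : ℝ) : (dir u).re = Real.cos (u * (Real.pi / 3)) := by unfold dir; exact cis_re _

theorem dir_im (u : ℝ) : (dir u).im = Real.sin (u * (Real.pi / 3)) := by unfold dir; exact cis_im _

/-- `wp` on the circle -/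
theorem wp_eq (x : ℂ) (s : ℝ) {e : ℝ} (he : e = 1 ∨ e = -1) (τ : ℝ) :
    wp x s e τ = pt x s + dir (s + e * (3 - 2 * τ)) := by
  have h1 : 2 * Real.sin (τ * (Real.pi / 3)) = 2 * Real.cos ((tw s e τ - s) * (Real.pi / 3)) := (cc_tw s he τ).symm
  have h2 : s + e * (3 - 2 * τ) = 2 * tw s e τ - s := by unfold tw; ring
  unfold wp
  rw [h1, h2]
  set θ := tw s e τ
  have e1 : po x (2 * Real.cos ((θ - s) * (Real.pi / 3)), θ) =
      x + (2 * Real.cos ((θ - s) * (Real.pi / 3)) : ℝ) * dir θ := rfl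
  have e2 : pt x s = x + dir s := rfl
  have hA : (2 * θ - s) * (Real.pi / 3) = θ * (Real.pi / 3) + (θ - s) * (Real.pi / 3) := by ring
  have hB : s * (Real.pi / 3) = θ * (Real.pi / 3) - (θ - s) * (Real.pi / 3) := by ring
  rw [e1, e2]
  apply Complex.ext
  · simp only [Complex.add_re, Complex.mul_re, Complex.ofReal_re, Complex.ofReal_im, dir_re, zero_mul, sub_zero]
    rw [hA, hB, Real.cos_add, Real.cos_sub]; ring
  · simp only [Complex.add_im, Complex.mul_im, Complex.ofReal_re, Complex.ofReal_im, dir_im, zero_mul, add_zero]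
    rw [hA, hB, Real.sin_add, Real.sin_sub]; ring

theorem dist_wp (x : ℂ) (s : ℝ) {e : ℝ} (he : e = 1 ∨ e = -1) (τ : ℝ) : dist (wp x s e τ) (pt x s) = 1 := by
  rw [wp_eq x s he, dist_eq_norm, add_sub_cancel_left, norm_dir]

/-- the distance to another point of the circle about `x` -/
theorem sq_dist_wp (x : ℂ) (s s' e τ : ℝ) : dist (wp x s e τ) (pt x s') ^ 2 =
    1 + 2 * Real.sin (τ * (Real.pi / 3)) * (2 * Real.sin (τ * (Real.pi / 3)) - cc s' (tw s e τ)) := by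
  unfold wp cc
  rw [sq_dist_po]; ring

/-! ### the colour `p` -/

/-- **a point of `S(y')` near `x` without the colour `p`** -/
theorem wp_cross (h : Irr U T) {s s' e : ℝ} {p : Fin 6}
    (hp : (0 < cc s (s' + e * (3 / 2)) ∧ ∃ᶠ w in 𝓝 (pt x s), w ∈ U p ∧ 1 < dist w x) ∨
      (cc s (s' + e * (3 / 2)) < 0 ∧ ∃ᶠ w in 𝓝 (pt x s), w ∈ U p ∧ dist w x < 1)) {ε : ℝ} (hε : 0 < ε) :
    ∃ τ, 0 < τ ∧ τ < ε ∧ ∀ᶠ w in 𝓝 (wp x s' e τ), p ∉ Pal U w := by
  have hpi := Real.pi_pos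
  have hct : Continuous fun τ => cc s (tw s' e τ) := (continuous_cc s).comp (by unfold tw; fun_prop)
  have h0 : tw s' e 0 = s' + e * (3 / 2) := by unfold tw; ring
  have hsn : Continuous fun τ : ℝ => 2 * Real.sin (τ * (Real.pi / 3)) := by fun_prop
  -- the two cases
  have key : ∃ τ₁, 0 < τ₁ ∧ τ₁ < ε ∧ ∃ y ∈ U p, ∃ τ ∈ Ioo 0 τ₁, dist (wp x s' e τ) y = 1 := by
    rcases hp with ⟨hc, hp⟩ | ⟨hc, hp⟩
    · have e1 : ∀ᶠ τ in 𝓝 (0 : ℝ), 2 * Real.sin (τ * (Real.pi / 3)) < cc s (tw s' e τ) := by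
        refine hsn.continuousAt.eventually_lt hct.continuousAt ?_
        simp only [zero_mul, Real.sin_zero, mul_zero]
        rw [h0]; exact hc
      obtain ⟨δ, hδ, hb⟩ := Metric.eventually_nhds_iff.1 e1
      set τ₁ := min (min (δ / 2) (ε / 2)) 1 with hτ
      have t0 : 0 < τ₁ := by positivity
      have t1 : τ₁ < δ := lt_of_le_of_lt ((min_le_left _ _).trans (min_le_left _ _)) (by linarith)
      have t2 : τ₁ < ε := lt_of_le_of_lt ((min_le_left _ _).trans (min_le_right _ _)) (by linarith)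
      have t3 : τ₁ ≤ 1 := min_le_right _ _
      have h1 : dist (wp x s' e τ₁) (pt x s) < 1 := by
        refine lt_one_of_sq dist_nonneg ?_
        rw [sq_dist_wp x s' s e]
        have := hb (y := τ₁) (by rw [dist_zero_right, Real.norm_of_nonneg t0.le]; exact t1)
        have hs := sin_pos t0 (by linarith)
        nlinarith
      have h2 : ∀ᶠ y in 𝓝 (pt x s), dist (wp x s' e τ₁) y < 1 :=
        (continuous_const.dist continuous_id).continuousAt.eventually_lt_const h1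
      obtain ⟨y, ⟨hy, hy1⟩, hy2⟩ := (hp.and_eventually h2).exists
      have hco : ContinuousOn (fun τ => dist (wp x s' e τ) y) (Icc 0 τ₁) :=
        ((continuous_wp x s' e).dist continuous_const).continuousOn
      have hm : (1 : ℝ) ∈ Ioo (dist (wp x s' e τ₁) y) (dist (wp x s' e 0) y) := by
        rw [wp_zero, dist_comm x y]; exact ⟨hy2, hy1⟩
      obtain ⟨τ, hτ1, hτ2⟩ := intermediate_value_Ioo' t0.le hco hm
      exact ⟨τ₁, t0, t2, y, hy, τ, hτ1, hτ2⟩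
    · have e1 : ∀ᶠ τ in 𝓝 (0 : ℝ), cc s (tw s' e τ) < 2 * Real.sin (τ * (Real.pi / 3)) := by
        refine hct.continuousAt.eventually_lt hsn.continuousAt ?_
        simp only [zero_mul, Real.sin_zero, mul_zero]
        rw [h0]; exact hc
      obtain ⟨δ, hδ, hb⟩ := Metric.eventually_nhds_iff.1 e1
      set τ₁ := min (min (δ / 2) (ε / 2)) 1 with hτ
      have t0 : 0 < τ₁ := by positivity
      have t1 : τ₁ < δ := lt_of_le_of_lt ((min_le_left _ _).trans (min_le_left _ _)) (by linarith)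
      have t2 : τ₁ < ε := lt_of_le_of_lt ((min_le_left _ _).trans (min_le_right _ _)) (by linarith)
      have t3 : τ₁ ≤ 1 := min_le_right _ _
      have h1 : 1 < dist (wp x s' e τ₁) (pt x s) := by
        refine one_lt_of_sq dist_nonneg ?_
        rw [sq_dist_wp x s' s e]
        have := hb (y := τ₁) (by rw [dist_zero_right, Real.norm_of_nonneg t0.le]; exact t1)
        have hs := sin_pos t0 (by linarith)
        nlinarith
      have h2 : ∀ᶠ y in 𝓝 (pt x s), 1 < dist (wp x s' e τ₁) y :=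
        (continuous_const.dist continuous_id).continuousAt.eventually_const_lt h1
      obtain ⟨y, ⟨hy, hy1⟩, hy2⟩ := (hp.and_eventually h2).exists
      have hco : ContinuousOn (fun τ => dist (wp x s' e τ) y) (Icc 0 τ₁) :=
        ((continuous_wp x s' e).dist continuous_const).continuousOn
      have hm : (1 : ℝ) ∈ Ioo (dist (wp x s' e 0) y) (dist (wp x s' e τ₁) y) := by
        rw [wp_zero, dist_comm x y]; exact ⟨hy1, hy2⟩
      obtain ⟨τ, hτ1, hτ2⟩ := intermediate_value_Ioo t0.le hco hm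
      exact ⟨τ₁, t0, t2, y, hy, τ, hτ1, hτ2⟩
  obtain ⟨τ₁, -, t2, y, hy, τ, ⟨h3, h4⟩, h5⟩ := key
  refine ⟨τ, h3, h4.trans t2, ?_⟩
  have h6 : p ∉ Pal U (wp x s' e τ) := h.mx.notMem' hy (by rw [dist_comm]; exact h5)
  exact (isClosed_closure.isOpen_compl).mem_nhds h6

/-! ### the colour `q` -/

/-- the distance of the translated point -/
theorem sq_dist_shift (y : ℂ) (φ r θ : ℝ) : dist (y + dir φ + (po y (r, θ) - y)) y ^ 2 =
    1 + r * (2 * Real.cos ((φ - θ) * (Real.pi / 3)) + r) := by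
  have e1 : po y (r, θ) = y + (r : ℂ) * dir θ := rfl
  have h1 := Real.sin_sq_add_cos_sq (φ * (Real.pi / 3))
  have h2 := Real.sin_sq_add_cos_sq (θ * (Real.pi / 3))
  rw [sq_dist, e1]
  simp only [Complex.add_re, Complex.add_im, Complex.sub_re, Complex.sub_im, Complex.mul_re, Complex.mul_im,
    Complex.ofReal_re, Complex.ofReal_im, dir_re, dir_im, zero_mul, sub_zero, add_zero]
  rw [show (φ - θ) * (Real.pi / 3) = φ * (Real.pi / 3) - θ * (Real.pi / 3) by ring, Real.cos_sub]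
  linear_combination h1 + r ^ 2 * h2

/-- near `wp` there are points without the colour `q`, on the given side of `S(y')` -/
theorem wp_shift (h : Irr U T) {s' e τ θq : ℝ} (he : e = 1 ∨ e = -1) {q : Fin 6} (hq : θq ∈ DS (U q) (pt x s')) :
    (Real.cos ((s' + e * (3 - 2 * τ) - θq) * (Real.pi / 3)) < 0 →
      ∃ᶠ w in 𝓝 (wp x s' e τ), q ∉ Pal U w ∧ dist w (pt x s') < 1) ∧
    (0 < Real.cos ((s' + e * (3 - 2 * τ) - θq) * (Real.pi / 3)) →
      ∃ᶠ w in 𝓝 (wp x s' e τ), q ∉ Pal U w ∧ 1 < dist w (pt x s')) := by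
  set φ := s' + e * (3 - 2 * τ) with hφ
  set y := pt x s' with hy
  have hw : wp x s' e τ = y + dir φ := wp_eq x s' he τ
  have hq : ∃ᶠ p in 𝓝 ((0 : ℝ), θq), p ∈ PS (U q) y := hq
  have ht : Tendsto (fun p : ℝ × ℝ => y + dir φ + (po y p - y)) (𝓝 ((0 : ℝ), θq)) (𝓝 (wp x s' e τ)) := by
    have hc : Continuous fun p : ℝ × ℝ => y + dir φ + (po y p - y) :=
      continuous_const.add ((continuous_po y).sub continuous_const)
    have h1 := hc.tendsto ((0 : ℝ), θq)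
    have h2 : y + dir φ + (po y ((0 : ℝ), θq) - y) = wp x s' e τ := by rw [po_zero, sub_self, add_zero, hw]
    rw [h2] at h1
    exact h1
  have hnq : ∀ p : ℝ × ℝ, po y p ∈ U q → q ∉ Pal U (y + dir φ + (po y p - y)) := by
    intro p hp
    refine h.mx.notMem' hp ?_
    rw [dist_comm, dist_eq_norm, show y + dir φ + (po y p - y) - po y p = dir φ by ring, norm_dir]
  have hcs : Continuous fun p : ℝ × ℝ => 2 * Real.cos ((φ - p.2) * (Real.pi / 3)) + p.1 := by fun_prop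
  constructor
  · intro hc
    have e1 : ∀ᶠ p : ℝ × ℝ in 𝓝 ((0 : ℝ), θq), 2 * Real.cos ((φ - p.2) * (Real.pi / 3)) + p.1 < 0 :=
      hcs.continuousAt.eventually_lt_const (by show 2 * Real.cos ((φ - θq) * (Real.pi / 3)) + 0 < 0; linarith)
    refine ht.frequently ((hq.and_eventually e1).mono fun p hp => ⟨hnq p hp.1.2, ?_⟩)
    refine lt_one_of_sq dist_nonneg ?_
    have h1 := sq_dist_shift y φ p.1 p.2
    have h2 := hp.1.1
    have h3 := hp.2
    rw [show ((p.1, p.2) : ℝ × ℝ) = p from rfl] at h1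
    rw [h1]
    nlinarith
  · intro hc
    have e1 : ∀ᶠ p : ℝ × ℝ in 𝓝 ((0 : ℝ), θq), 0 < 2 * Real.cos ((φ - p.2) * (Real.pi / 3)) + p.1 :=
      hcs.continuousAt.eventually_const_lt (by show 0 < 2 * Real.cos ((φ - θq) * (Real.pi / 3)) + 0; linarith)
    refine ht.frequently ((hq.and_eventually e1).mono fun p hp => ⟨hnq p hp.1.2, ?_⟩)
    refine one_lt_of_sq dist_nonneg ?_
    have h1 := sq_dist_shift y φ p.1 p.2
    have h2 := hp.1.1
    have h3 := hp.2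
    rw [show ((p.1, p.2) : ℝ × ℝ) = p from rfl] at h1
    rw [h1]
    nlinarith

/-! ### the third colour -/

/-- from points without `p`, `q` near `wp` to a third colour at `x` -/
theorem third_of (h : Irr U T) {s' e : ℝ} {p q : Fin 6} {Z : Set ℂ} (hZ : IsOpen Z)
    (hw : ∀ ε > 0, ∃ τ, 0 < τ ∧ τ < ε ∧ ∃ᶠ w in 𝓝 (wp x s' e τ), p ∉ Pal U w ∧ q ∉ Pal U w ∧ w ∈ Z) :
    ∃ r, r ≠ p ∧ r ≠ q ∧ ∃ᶠ P in 𝓝 ((0 : ℝ), s' + e * (3 / 2)), P ∈ PS (Sq T r) x ∧ po x P ∈ Z := by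
  by_contra hcon
  push Not at hcon
  have h1 : ∀ᶠ P in 𝓝 ((0 : ℝ), s' + e * (3 / 2)), ∀ r, r ≠ p → r ≠ q → ¬ (P ∈ PS (Sq T r) x ∧ po x P ∈ Z) := by
    rw [eventually_all]
    intro r
    by_cases hr : r ≠ p ∧ r ≠ q
    · exact (hcon r hr.1 hr.2).mono fun P hP _ _ h2 => hP h2.1 h2.2
    · exact Eventually.of_forall fun P h2 h3 => absurd ⟨h2, h3⟩ hr
  have ht : Tendsto (fun τ : ℝ => (2 * Real.sin (τ * (Real.pi / 3)), tw s' e τ)) (𝓝[>] 0)
      (𝓝 ((0 : ℝ), s' + e * (3 / 2))) := by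
    have hc : Continuous fun τ : ℝ => (2 * Real.sin (τ * (Real.pi / 3)), tw s' e τ) := by unfold tw; fun_prop
    have h2 := hc.tendsto 0
    have e1 : (2 * Real.sin ((0 : ℝ) * (Real.pi / 3)), tw s' e 0) = ((0 : ℝ), s' + e * (3 / 2)) := by
      unfold tw; simp
    rw [e1] at h2
    exact h2.mono_left nhdsWithin_le_nhds
  have h3 := ht.eventually (eventually_eventually_nhds.2 h1)
  obtain ⟨δ, hδ, hb⟩ := mem_nhdsGT_iff_exists_Ioo_subset.1 h3
  obtain ⟨τ, t1, t2, hf⟩ := hw (min δ 1) (lt_min hδ one_pos)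
  have h4 : ∀ᶠ P in 𝓝 (2 * Real.sin (τ * (Real.pi / 3)), tw s' e τ), ∀ r, r ≠ p → r ≠ q →
      ¬ (P ∈ PS (Sq T r) x ∧ po x P ∈ Z) := hb ⟨t1, t2.trans_le (min_le_left _ _)⟩
  have hpos : 0 < 2 * Real.sin (τ * (Real.pi / 3)) :=
    mul_pos two_pos (sin_pos t1 (by linarith [min_le_right δ 1]))
  -- a pure point
  have h5 : ∃ᶠ w in 𝓝 (wp x s' e τ), ∃ r, r ≠ p ∧ r ≠ q ∧ T w = {r} ∧ w ∈ Z := by
    rw [frequently_iff]
    intro N hN
    obtain ⟨O, hON, hO, hxO⟩ := _root_.mem_nhds_iff.1 hN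
    obtain ⟨w, ⟨hwp, hwq, hwZ⟩, hwO⟩ := (hf.and_eventually (hO.mem_nhds hxO)).exists
    obtain ⟨r, hr⟩ := h.ne w
    have hrp : r ≠ p := fun h6 => hwp (h6 ▸ h.sub w hr)
    have hrq : r ≠ q := fun h6 => hwq (h6 ▸ h.sub w hr)
    obtain ⟨v, hv1, hv2, hv3⟩ := ((h.pure w r hr).and_eventually
      (Filter.Eventually.and (hO.mem_nhds hwO) (hZ.mem_nhds hwZ))).exists
    exact ⟨v, hON hv2, r, hrp, hrq, hv1, hv3⟩
  have h6 := freq_lift (x := x) (p := (2 * Real.sin (τ * (Real.pi / 3)), tw s' e τ)) hpos h5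
  have h7 : ∀ᶠ P : ℝ × ℝ in 𝓝 (2 * Real.sin (τ * (Real.pi / 3)), tw s' e τ), 0 < P.1 :=
    continuous_fst.continuousAt.eventually_const_lt hpos
  obtain ⟨P, ⟨r, hr1, hr2, hr3, hr4⟩, hP0, hP⟩ := (h6.and_eventually (h7.and h4)).exists
  exact hP r hr1 hr2 ⟨⟨hP0, hr3⟩, hr4⟩

/-- the hypothesis on the colour `p` at `y = pt x s` -/
def Sd (U : Fin 6 → Set ℂ) (x : ℂ) (s s' e : ℝ) (p : Fin 6) : Prop :=
  (0 < cc s (s' + e * (3 / 2)) ∧ ∃ᶠ w in 𝓝 (pt x s), w ∈ U p ∧ 1 < dist w x) ∨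
    (cc s (s' + e * (3 / 2)) < 0 ∧ ∃ᶠ w in 𝓝 (pt x s), w ∈ U p ∧ dist w x < 1)

/-- **X-rule, inside `S(y')`** -/
theorem xr_in (h : Irr U T) {s s' e θq : ℝ} (he : e = 1 ∨ e = -1) {p q : Fin 6} (hp : Sd U x s s' e p)
    (hq : θq ∈ DS (U q) (pt x s'))
    (hc : ∀ᶠ τ in 𝓝[>] (0 : ℝ), Real.cos ((s' + e * (3 - 2 * τ) - θq) * (Real.pi / 3)) < 0) :
    ∃ r, r ≠ p ∧ r ≠ q ∧ ∃ᶠ P in 𝓝 ((0 : ℝ), s' + e * (3 / 2)), P ∈ PS (Sq T r) x ∧ dist (po x P) (pt x s') < 1 := by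
  obtain ⟨δ, hδ, hb⟩ := mem_nhdsGT_iff_exists_Ioo_subset.1 hc
  have hZ : IsOpen {w | dist w (pt x s') < 1} := isOpen_lt (continuous_id.dist continuous_const) continuous_const
  refine third_of h hZ fun ε hε => ?_
  obtain ⟨τ, t1, t2, t3⟩ := wp_cross h hp (lt_min hε hδ)
  have h1 := (wp_shift h (τ := τ) he hq).1 (hb ⟨t1, t2.trans_le (min_le_right _ _)⟩)
  exact ⟨τ, t1, t2.trans_le (min_le_left _ _), (h1.and_eventually t3).mono fun w hw => ⟨hw.2, hw.1.1, hw.1.2⟩⟩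

/-- **X-rule, middle zone** -/
theorem xr_out (h : Irr U T) {s s' e θq : ℝ} (he : e = 1 ∨ e = -1) {p q : Fin 6} (hp : Sd U x s s' e p)
    (hq : θq ∈ DS (U q) (pt x s'))
    (hc : ∀ᶠ τ in 𝓝[>] (0 : ℝ), 0 < Real.cos ((s' + e * (3 - 2 * τ) - θq) * (Real.pi / 3))) :
    ∃ r, r ≠ p ∧ r ≠ q ∧ ∃ᶠ P in 𝓝 ((0 : ℝ), s' + e * (3 / 2)), P ∈ PS (Sq T r) x ∧ 1 < dist (po x P) (pt x s') ∧
      1 < dist (po x P) (pt x (s' + 3)) := by
  obtain ⟨δ, hδ, hb⟩ := mem_nhdsGT_iff_exists_Ioo_subset.1 hc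
  have hZ : IsOpen {w | 1 < dist w (pt x s') ∧ 1 < dist w (pt x (s' + 3))} := by
    have h1 : IsOpen {w | 1 < dist w (pt x s')} := isOpen_lt continuous_const (continuous_id.dist continuous_const)
    have h2 : IsOpen {w | 1 < dist w (pt x (s' + 3))} :=
      isOpen_lt continuous_const (continuous_id.dist continuous_const)
    exact h1.inter h2
  refine third_of h hZ fun ε hε => ?_
  obtain ⟨τ, t1, t2, t3⟩ := wp_cross h hp (lt_min (lt_min hε hδ) one_pos)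
  have t4 : τ < ε := t2.trans_le ((min_le_left _ _).trans (min_le_left _ _))
  have t5 : τ < δ := t2.trans_le ((min_le_left _ _).trans (min_le_right _ _))
  have t6 : τ < 1 := t2.trans_le (min_le_right _ _)
  have h1 := (wp_shift h (τ := τ) he hq).2 (hb ⟨t1, t5⟩)
  have h2 : 1 < dist (wp x s' e τ) (pt x (s' + 3)) := by
    refine one_lt_of_sq dist_nonneg ?_
    rw [sq_dist_wp x s' (s' + 3) e, cc_half, cc_tw s' he]
    have := sin_pos t1 (by linarith)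
    nlinarith
  have h3 : ∀ᶠ w in 𝓝 (wp x s' e τ), 1 < dist w (pt x (s' + 3)) :=
    (continuous_id.dist continuous_const).continuousAt.eventually_const_lt h2
  exact ⟨τ, t1, t4, (h1.and_eventually (t3.and h3)).mono fun w hw => ⟨hw.2.1, hw.1.1, hw.1.2, hw.2.2⟩⟩

/-! ### the signs -/

/-- `q` in the open half plane away from `x` -/
theorem sg_away {s' θq e : ℝ} (he : e = 1 ∨ e = -1) (hq : 0 < cc s' θq) :
    ∀ᶠ τ in 𝓝[>] (0 : ℝ), Real.cos ((s' + e * (3 - 2 * τ) - θq) * (Real.pi / 3)) < 0 := by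
  have hc : Continuous fun τ : ℝ => Real.cos ((s' + e * (3 - 2 * τ) - θq) * (Real.pi / 3)) := by fun_prop
  refine (hc.continuousAt.eventually_lt_const ?_).filter_mono nhdsWithin_le_nhds
  unfold cc at hq
  have e1 : Real.cos ((s' + e * (3 - 2 * 0) - θq) * (Real.pi / 3)) = -Real.cos ((θq - s') * (Real.pi / 3)) := by
    rcases he with rfl | rfl
    · rw [show (s' + 1 * (3 - 2 * 0) - θq) * (Real.pi / 3) = Real.pi - (θq - s') * (Real.pi / 3) by ring,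
        Real.cos_pi_sub]
    · rw [show (s' + -1 * (3 - 2 * 0) - θq) * (Real.pi / 3) = -((θq - s') * (Real.pi / 3) + Real.pi) by ring,
        Real.cos_neg, Real.cos_add_pi]
  show Real.cos ((s' + e * (3 - 2 * 0) - θq) * (Real.pi / 3)) < 0
  rw [e1]; linarith

/-- `q` in the open half plane towards `x` -/
theorem sg_toward {s' θq e : ℝ} (he : e = 1 ∨ e = -1) (hq : cc s' θq < 0) :
    ∀ᶠ τ in 𝓝[>] (0 : ℝ), 0 < Real.cos ((s' + e * (3 - 2 * τ) - θq) * (Real.pi / 3)) := by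
  have hc : Continuous fun τ : ℝ => Real.cos ((s' + e * (3 - 2 * τ) - θq) * (Real.pi / 3)) := by fun_prop
  refine (hc.continuousAt.eventually_const_lt ?_).filter_mono nhdsWithin_le_nhds
  unfold cc at hq
  have e1 : Real.cos ((s' + e * (3 - 2 * 0) - θq) * (Real.pi / 3)) = -Real.cos ((θq - s') * (Real.pi / 3)) := by
    rcases he with rfl | rfl
    · rw [show (s' + 1 * (3 - 2 * 0) - θq) * (Real.pi / 3) = Real.pi - (θq - s') * (Real.pi / 3) by ring,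
        Real.cos_pi_sub]
    · rw [show (s' + -1 * (3 - 2 * 0) - θq) * (Real.pi / 3) = -((θq - s') * (Real.pi / 3) + Real.pi) by ring,
        Real.cos_neg, Real.cos_add_pi]
  show 0 < Real.cos ((s' + e * (3 - 2 * 0) - θq) * (Real.pi / 3))
  rw [e1]; linarith

/-- `q` along the opposite tangent -/
theorem sg_opp {s' e : ℝ} (he : e = 1 ∨ e = -1) :
    ∀ᶠ τ in 𝓝[>] (0 : ℝ), Real.cos ((s' + e * (3 - 2 * τ) - (s' - e * (3 / 2))) * (Real.pi / 3)) < 0 := by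
  have hpi := Real.pi_pos
  filter_upwards [Ioo_mem_nhdsGT (show (0 : ℝ) < 1 by norm_num)] with τ ht
  have hs : 0 < Real.sin (2 * τ * (Real.pi / 3)) := sin_pos (by linarith [ht.1]) (by linarith [ht.2])
  rcases he with rfl | rfl
  · rw [show (s' + 1 * (3 - 2 * τ) - (s' - 1 * (3 / 2))) * (Real.pi / 3) =
      Real.pi + (Real.pi / 2 - 2 * τ * (Real.pi / 3)) by ring, add_comm, Real.cos_add_pi, Real.cos_pi_div_two_sub]
    linarith
  · rw [show (s' + -1 * (3 - 2 * τ) - (s' - -1 * (3 / 2))) * (Real.pi / 3) =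
      -((Real.pi / 2 - 2 * τ * (Real.pi / 3)) + Real.pi) by ring, Real.cos_neg, Real.cos_add_pi,
      Real.cos_pi_div_two_sub]
    linarith

/-- `q` along the same tangent -/
theorem sg_same {s' e : ℝ} (he : e = 1 ∨ e = -1) :
    ∀ᶠ τ in 𝓝[>] (0 : ℝ), 0 < Real.cos ((s' + e * (3 - 2 * τ) - (s' + e * (3 / 2))) * (Real.pi / 3)) := by
  have hpi := Real.pi_pos
  filter_upwards [Ioo_mem_nhdsGT (show (0 : ℝ) < 1 by norm_num)] with τ ht
  have hs : 0 < Real.sin (2 * τ * (Real.pi / 3)) := sin_pos (by linarith [ht.1]) (by linarith [ht.2])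
  rcases he with rfl | rfl
  · rw [show (s' + 1 * (3 - 2 * τ) - (s' + 1 * (3 / 2))) * (Real.pi / 3) =
      Real.pi / 2 - 2 * τ * (Real.pi / 3) by ring, Real.cos_pi_div_two_sub]
    exact hs
  · rw [show (s' + -1 * (3 - 2 * τ) - (s' + -1 * (3 / 2))) * (Real.pi / 3) =
      -(Real.pi / 2 - 2 * τ * (Real.pi / 3)) by ring, Real.cos_neg, Real.cos_pi_div_two_sub]
    exact hs

/-! ### cells -/

theorem strict_of_in {S : Set ℂ} {y u : ℂ} (hu : ‖u‖ = 1) (h : In S y (y + u)) :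
    ∃ᶠ w in 𝓝 y, w ∈ S ∧ 1 < dist w (y - u) := by
  refine h.mono fun w hw => ⟨hw.1, ?_⟩
  have h1 := dist_triangle (y + u) w (y - u)
  have h2 : dist (y + u) (y - u) = 2 := by
    rw [dist_eq_norm, show y + u - (y - u) = 2 * u by ring, norm_mul, hu]; norm_num
  rw [dist_comm (y + u) w] at h1
  linarith [hw.2]

/-- the cells `(k, s + d)` of a point `y` outside the circle about `y - u(s)` -/
def XOut (K k d : ℕ) : Prop :=
  (k = 0 ∧ 3 * K ≤ d) ∨ (k ≠ 0 ∧ 3 * K < d) ∨ (d = 0 ∧ (k = 1 ∨ k = 2)) ∨ (d = 3 * K ∧ (k = 2 ∨ k = 3))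

/-- the cells `(k, s + d)` of a point `y` inside the circle about `y - u(s)` -/
def XIn (K k d : ℕ) : Prop :=
  (k = 0 ∧ d < 3 * K) ∨ (k ≠ 0 ∧ 0 < d ∧ d < 3 * K) ∨ (d = 0 ∧ k = 3) ∨ (d = 3 * K ∧ k = 1)

/-- the cells away from `y - u(s)` and the tangent ray `t` (`t = 3 K`, `0`) -/
def XAw (K t k d : ℕ) : Prop := (k = 0 ∧ 3 * K ≤ d) ∨ (k ≠ 0 ∧ (3 * K < d ∨ d = t))

/-- the cells towards `y - u(s)` and the tangent ray `t` -/
def XTw (K t k d : ℕ) : Prop := (k = 0 ∧ d < 3 * K) ∨ (k ≠ 0 ∧ ((0 < d ∧ d < 3 * K) ∨ d = t))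

section
variable {K : ℕ} (A : Tick K a)
include A

theorem xout {S : Set ℂ} (hS : IsOpen S) {y : ℂ} {s k d : ℕ} (hd : d < 6 * K) (hx : XOut K k d)
    (hc : Cl S y a k (s + d)) : ∃ᶠ w in 𝓝 y, w ∈ S ∧ 1 < dist w (y - dir (a s)) := by
  rcases hx with ⟨rfl, h1⟩ | ⟨h0, h1⟩ | ⟨rfl, h1⟩ | ⟨rfl, h1⟩
  · obtain ⟨e, rfl⟩ := Nat.exists_eq_add_of_le h1
    rw [← add_assoc] at hc
    exact strict_of_in (norm_dir _) (CK.hi_sector A (by omega) hc)
  · obtain ⟨e, rfl⟩ := Nat.exists_eq_add_of_le h1.le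
    rw [← add_assoc] at hc
    exact strict_of_in (norm_dir _) (CK.hi_ray A (by omega) (by omega) h0 hc)
  · rw [add_zero] at hc
    rcases h1 with rfl | rfl
    · exact strict_of_in (norm_dir _) (in_one hc)
    · exact ou_strict' hS (ou_two hc).2
  · rcases h1 with rfl | rfl
    · exact ou_strict' hS (CK.ou_two_half A hc).2
    · exact strict_of_in (norm_dir _) (CK.hi_three A hc)

theorem xin {S : Set ℂ} {y : ℂ} {s k d : ℕ} (hx : XIn K k d)
    (hc : Cl S y a k (s + d)) : ∃ᶠ w in 𝓝 y, w ∈ S ∧ dist w (y - dir (a s)) < 1 := by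
  have hK := A.pos
  have key : HI S y a (s + 3 * K) → ∃ᶠ w in 𝓝 y, w ∈ S ∧ dist w (y - dir (a s)) < 1 := fun h1 => by
    rw [CK.hi_half A] at h1; exact h1
  rcases hx with ⟨rfl, h1⟩ | ⟨h0, h1, h2⟩ | ⟨rfl, rfl⟩ | ⟨rfl, rfl⟩
  · refine key (CK.hi_sector A (d := d) (by omega) ?_)
    rw [show s + 3 * K + 3 * K + d = s + d + 6 * K by ring, CK.cl_full A]; exact hc
  · refine key (CK.hi_ray A (d := d) (k := k) (by omega) (by omega) h0 ?_)
    rw [show s + 3 * K + 3 * K + d = s + d + 6 * K by ring, CK.cl_full A]; exact hc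
  · rw [add_zero] at hc
    exact freq_po (P := fun w => w ∈ S ∧ dist w (y - dir (a s)) < 1)
      (((cl_pos (by norm_num)).1 hc).mono fun _ hp => ⟨hp.1.2, H357.zn_three.1 hp.2⟩)
  · refine freq_po (P := fun w => w ∈ S ∧ dist w (y - dir (a s)) < 1)
      (((cl_pos (by norm_num)).1 hc).mono fun _ hp => ⟨hp.1.2, ?_⟩)
    have := H357.zn_one.1 hp.2
    rwa [CK.dir_half A, ← sub_eq_add_neg] at this

/-- the direction of a cell away from `y - u(s)` -/
theorem xaw {S : Set ℂ} {y : ℂ} {s k d t : ℕ} {e : ℝ} (hd : d < 6 * K) (ht : (e = 1 ∧ t = 3 * K) ∨ (e = -1 ∧ t = 0))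
    (hx : XAw K t k d) (hc : Cl S y a k (s + d)) : ∃ θ ∈ DS S y,
      ∀ᶠ τ in 𝓝[>] (0 : ℝ), Real.cos ((a s + e * (3 - 2 * τ) - θ) * (Real.pi / 3)) < 0 := by
  have he : e = 1 ∨ e = -1 := ht.imp And.left And.left
  rcases hx with ⟨rfl, h1⟩ | ⟨h0, h1 | h1⟩
  · obtain ⟨m, rfl⟩ := Nat.exists_eq_add_of_le h1
    rw [← add_assoc] at hc
    obtain ⟨θ, h2, h3⟩ := cl_zero.1 hc
    refine ⟨θ, h3, sg_away he ?_⟩
    have := CK.sector_angle A (d := m) (by omega) h2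
    unfold cc; linarith
  · obtain ⟨m, rfl⟩ := Nat.exists_eq_add_of_le h1.le
    rw [← add_assoc] at hc
    refine ⟨_, cl_ray h0 hc, sg_away he ?_⟩
    have := CK.ray_angle A (s := s) (d := m) (by omega) (by omega)
    unfold cc; linarith
  · rw [h1] at hc
    rcases ht with ⟨rfl, rfl⟩ | ⟨rfl, rfl⟩
    · have h2 := cl_ray h0 hc
      have e1 : ra a (s + 3 * K) = (a s - 1 * (3 / 2)) + 6 := by
        rw [CK.ra_half A]; unfold ra; ring
      rw [e1, ds_six] at h2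
      exact ⟨_, h2, sg_opp (Or.inl rfl)⟩
    · rw [add_zero] at hc
      have h2 := cl_ray h0 hc
      have e1 : ra a s = a s - -1 * (3 / 2) := by unfold ra; ring
      rw [e1] at h2
      exact ⟨_, h2, sg_opp (Or.inr rfl)⟩

/-- the direction of a cell towards `y - u(s)` -/
theorem xtw {S : Set ℂ} {y : ℂ} {s k d t : ℕ} {e : ℝ} (ht : (e = 1 ∧ t = 0) ∨ (e = -1 ∧ t = 3 * K))
    (hx : XTw K t k d) (hc : Cl S y a k (s + d)) : ∃ θ ∈ DS S y,
      ∀ᶠ τ in 𝓝[>] (0 : ℝ), 0 < Real.cos ((a s + e * (3 - 2 * τ) - θ) * (Real.pi / 3)) := by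
  have he : e = 1 ∨ e = -1 := ht.imp And.left And.left
  have hr : ra a s = a s + 3 / 2 := rfl
  have hh := CK.ra_half A s
  rcases hx with ⟨rfl, h1⟩ | ⟨h0, ⟨h1, h2⟩ | h1⟩
  · obtain ⟨θ, h2, h3⟩ := cl_zero.1 hc
    have h4 := CK.ra_le A (show s ≤ s + d by omega)
    have h5 := CK.ra_le A (show s + d + 1 ≤ s + 3 * K by omega)
    exact ⟨θ, h3, sg_toward he (cc_neg (by linarith [h2.1]) (by linarith [h2.2]))⟩
  · have h4 := CK.ra_lt A (show s < s + d by omega)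
    have h5 := CK.ra_lt A (show s + d < s + 3 * K by omega)
    exact ⟨_, cl_ray h0 hc, sg_toward he (cc_neg (by linarith) (by linarith))⟩
  · rw [h1] at hc
    rcases ht with ⟨rfl, rfl⟩ | ⟨rfl, rfl⟩
    · rw [add_zero] at hc
      have h2 := cl_ray h0 hc
      have e1 : ra a s = a s + 1 * (3 / 2) := by unfold ra; ring
      rw [e1] at h2
      exact ⟨_, h2, sg_same (Or.inl rfl)⟩
    · have h2 := cl_ray h0 hc
      have e1 : ra a (s + 3 * K) = (a s + -1 * (3 / 2)) + 6 := by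
        rw [CK.ra_half A]; unfold ra; ring
      rw [e1, ds_six] at h2
      exact ⟨_, h2, sg_same (Or.inr rfl)⟩

/-- the hypothesis on `p`: `y = x + u(s + D)` -/
theorem sd_of (h : Irr U T) {y : ℂ} {s D k d : ℕ} {e : ℝ} {p : Fin 6} (he : e = 1 ∨ e = -1) (hD0 : 0 < D)
    (hD1 : D < 6 * K) (hy : y = x + dir (a (s + D))) (hd : d < 6 * K)
    (hx : (((e = 1 ∧ D < 3 * K) ∨ (e = -1 ∧ 3 * K < D)) ∧ XOut K k d) ∨
      (((e = 1 ∧ 3 * K < D) ∨ (e = -1 ∧ D < 3 * K)) ∧ XIn K k d)) (hc : Cl (U p) y a k (s + D + d)) :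
    Sd U x (a (s + D)) (a s) e p := by
  have ex : y - dir (a (s + D)) = x := by rw [hy]; ring
  have ey : y = pt x (a (s + D)) := hy
  have m1 : a s < a (s + D) := A.mono (by omega)
  have m2 : a (s + D) < a s + 6 := by rw [← CK.a_full A]; exact A.mono (by omega)
  have m3 : D < 3 * K → a (s + D) < a s + 3 := fun h1 => by rw [← CK.a_half A]; exact A.mono (by omega)
  have m4 : 3 * K < D → a s + 3 < a (s + D) := fun h1 => by rw [← CK.a_half A]; exact A.mono (by omega)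
  -- the sign in the last quarter
  have c6 : ∀ u θ : ℝ, cc u (θ + 6) = cc u θ := by
    intro u θ
    unfold cc
    rw [show (θ + 6 - u) * (Real.pi / 3) = (θ - u) * (Real.pi / 3) + 2 * Real.pi by ring, Real.cos_add_two_pi]
  rcases hx with ⟨h1, h2⟩ | ⟨h1, h2⟩
  · have h3 := xout A (h.mx.isOpen p) hd h2 hc
    rw [ex, ey] at h3
    refine Or.inl ⟨?_, h3⟩
    rcases h1 with ⟨rfl, h1⟩ | ⟨rfl, h1⟩
    · exact cc_pos (by linarith [m3 h1]) (by linarith)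
    · rw [← c6]
      exact cc_pos (by linarith) (by linarith [m4 h1])
  · have h3 := xin A h2 hc
    rw [ex, ey] at h3
    refine Or.inr ⟨?_, h3⟩
    rcases h1 with ⟨rfl, h1⟩ | ⟨rfl, h1⟩
    · rw [← c6]
      exact cc_neg (by linarith) (by linarith [m4 h1])
    · rw [← c6]
      exact cc_neg (by linarith [m3 h1]) (by linarith)

/-- **X-rule**, the tangent ray `s`: a third colour in the zone 1 -/
theorem xrule_one (h : Irr U T) {y y' : ℂ} {s D k d k' d' : ℕ} {p q : Fin 6} (hD0 : 0 < D)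
    (hD1 : D < 6 * K) (hy : y = x + dir (a (s + D))) (hy' : y' = x + dir (a s)) (hd : d < 6 * K)
    (hd' : d' < 6 * K) (hx : (D < 3 * K ∧ XOut K k d) ∨ (3 * K < D ∧ XIn K k d)) (hc : Cl (U p) y a k (s + D + d))
    (hx' : XAw K (3 * K) k' d') (hc' : Cl (U q) y' a k' (s + d')) :
    ∃ r, r ≠ p ∧ r ≠ q ∧ Cl (Sq T r) x a 1 s := by
  have ey : y' = pt x (a s) := hy'
  rw [ey] at hc'
  obtain ⟨θ, h1, h2⟩ := xaw A hd' (Or.inl ⟨rfl, rfl⟩) hx' hc'
  have hp : Sd U x (a (s + D)) (a s) 1 p := sd_of A h (Or.inl rfl) hD0 hD1 hy hd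
    (hx.imp (fun h3 => ⟨Or.inl ⟨rfl, h3.1⟩, h3.2⟩) fun h3 => ⟨Or.inl ⟨rfl, h3.1⟩, h3.2⟩) hc
  obtain ⟨r, h3, h4, h5⟩ := xr_in h (Or.inl rfl) hp h1 h2
  refine ⟨r, h3, h4, (cl_pos one_ne_zero).2 ?_⟩
  have e1 : a s + 1 * (3 / 2) = ra a s := by unfold ra; ring
  rw [e1] at h5
  exact h5.mono fun P hP => ⟨hP.1, H357.zn_one.2 hP.2⟩

/-- **X-rule**, the tangent ray `s`: a third colour in the zone 2 -/
theorem xrule_two (h : Irr U T) {y y' : ℂ} {s D k d k' d' : ℕ} {p q : Fin 6} (hD0 : 0 < D)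
    (hD1 : D < 6 * K) (hy : y = x + dir (a (s + D))) (hy' : y' = x + dir (a s)) (hd : d < 6 * K)
    (hx : (D < 3 * K ∧ XOut K k d) ∨ (3 * K < D ∧ XIn K k d)) (hc : Cl (U p) y a k (s + D + d))
    (hx' : XTw K 0 k' d') (hc' : Cl (U q) y' a k' (s + d')) :
    ∃ r, r ≠ p ∧ r ≠ q ∧ Cl (Sq T r) x a 2 s := by
  have ey : y' = pt x (a s) := hy'
  rw [ey] at hc'
  obtain ⟨θ, h1, h2⟩ := xtw A (Or.inl ⟨rfl, rfl⟩) hx' hc'
  have hp : Sd U x (a (s + D)) (a s) 1 p := sd_of A h (Or.inl rfl) hD0 hD1 hy hd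
    (hx.imp (fun h3 => ⟨Or.inl ⟨rfl, h3.1⟩, h3.2⟩) fun h3 => ⟨Or.inl ⟨rfl, h3.1⟩, h3.2⟩) hc
  obtain ⟨r, h3, h4, h5⟩ := xr_out h (Or.inl rfl) hp h1 h2
  refine ⟨r, h3, h4, (cl_pos two_ne_zero).2 ?_⟩
  have e1 : a s + 1 * (3 / 2) = ra a s := by unfold ra; ring
  rw [e1] at h5
  refine h5.mono fun P hP => ⟨hP.1, H357.zn_two.2 ⟨hP.2.1.le, ?_⟩⟩
  rw [sub_dir]; exact hP.2.2.le

/-- **X-rule**, the tangent ray `s + 3 K`: a third colour in the zone 3 -/
theorem xrule_three (h : Irr U T) {y y' : ℂ} {s D k d k' d' : ℕ} {p q : Fin 6} (hD0 : 0 < D)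
    (hD1 : D < 6 * K) (hy : y = x + dir (a (s + D))) (hy' : y' = x + dir (a s)) (hd : d < 6 * K)
    (hd' : d' < 6 * K) (hx : (3 * K < D ∧ XOut K k d) ∨ (D < 3 * K ∧ XIn K k d)) (hc : Cl (U p) y a k (s + D + d))
    (hx' : XAw K 0 k' d') (hc' : Cl (U q) y' a k' (s + d')) :
    ∃ r, r ≠ p ∧ r ≠ q ∧ Cl (Sq T r) x a 3 (s + 3 * K) := by
  have ey : y' = pt x (a s) := hy'
  rw [ey] at hc'
  obtain ⟨θ, h1, h2⟩ := xaw A hd' (Or.inr ⟨rfl, rfl⟩) hx' hc'
  have hp : Sd U x (a (s + D)) (a s) (-1) p := sd_of A h (Or.inr rfl) hD0 hD1 hy hd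
    (hx.imp (fun h3 => ⟨Or.inr ⟨rfl, h3.1⟩, h3.2⟩) fun h3 => ⟨Or.inr ⟨rfl, h3.1⟩, h3.2⟩) hc
  obtain ⟨r, h3, h4, h5⟩ := xr_in h (Or.inr rfl) hp h1 h2
  refine ⟨r, h3, h4, (cl_pos three_ne_zero).2 ?_⟩
  have e1 : ra a (s + 3 * K) = a s + -1 * (3 / 2) + 6 := by rw [CK.ra_half A]; unfold ra; ring
  rw [e1]
  refine (freq_six (P := fun ρ w => (0 < ρ ∧ w ∈ Sq T r) ∧ Zn x (dir (a (s + 3 * K))) 3 w)).2
    (h5.mono fun P hP => ⟨hP.1, H357.zn_three.2 ?_⟩)
  rw [CK.dir_half A, sub_neg_eq_add]; exact hP.2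

/-- **X-rule**, the tangent ray `s + 3 K`: a third colour in the zone 2 -/
theorem xrule_two' (h : Irr U T) {y y' : ℂ} {s D k d k' d' : ℕ} {p q : Fin 6} (hD0 : 0 < D)
    (hD1 : D < 6 * K) (hy : y = x + dir (a (s + D))) (hy' : y' = x + dir (a s)) (hd : d < 6 * K)
    (hx : (3 * K < D ∧ XOut K k d) ∨ (D < 3 * K ∧ XIn K k d)) (hc : Cl (U p) y a k (s + D + d))
    (hx' : XTw K (3 * K) k' d') (hc' : Cl (U q) y' a k' (s + d')) :
    ∃ r, r ≠ p ∧ r ≠ q ∧ Cl (Sq T r) x a 2 (s + 3 * K) := by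
  have ey : y' = pt x (a s) := hy'
  rw [ey] at hc'
  obtain ⟨θ, h1, h2⟩ := xtw A (Or.inr ⟨rfl, rfl⟩) hx' hc'
  have hp : Sd U x (a (s + D)) (a s) (-1) p := sd_of A h (Or.inr rfl) hD0 hD1 hy hd
    (hx.imp (fun h3 => ⟨Or.inr ⟨rfl, h3.1⟩, h3.2⟩) fun h3 => ⟨Or.inr ⟨rfl, h3.1⟩, h3.2⟩) hc
  obtain ⟨r, h3, h4, h5⟩ := xr_out h (Or.inr rfl) hp h1 h2
  refine ⟨r, h3, h4, (cl_pos two_ne_zero).2 ?_⟩
  have e1 : ra a (s + 3 * K) = a s + -1 * (3 / 2) + 6 := by rw [CK.ra_half A]; unfold ra; ring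
  rw [e1]
  refine (freq_six (P := fun ρ w => (0 < ρ ∧ w ∈ Sq T r) ∧ Zn x (dir (a (s + 3 * K))) 2 w)).2
    (h5.mono fun P hP => ⟨hP.1, H357.zn_two.2 ⟨?_, ?_⟩⟩)
  · rw [CK.dir_half A, ← sub_eq_add_neg, sub_dir]; exact hP.2.2.le
  · rw [CK.dir_half A, sub_neg_eq_add]; exact hP.2.1.le

end

end Vale.Agent.P032.H374
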