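import Vale.Agent.P032.H374.Germ
import Vale.Agent.P032.H357.CellK

/-!
# P032: the wall graph in a cell and in two adjacent cells

Frame `Irr U T` with `MnK` (= `Mn`), any number `K` of direction classes, any number of colours.  `Wll T x i l` : no point of
the unit circle about `x` has its palette inside `{i, l}`.

* `cell_wall` : colours inside and outside `B` occur in a cell; then there is a wall `i' ∈ B`, `l' ∉ B`, `Wll T x i' l'`,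
  both in the cell (or all six colours are in the cell),
* `union01`, `union12`, `union23`, `union30` : the same for two adjacent cells together,
* `adj01`, `adj12`, `adj23`, `adj30` : two adjacent cells have a common colour or `Wll T x i l` for a colour `i` of the first
  and `l` of the second (or all six colours occur in them).
-/

open Set Filter Topology Metric

noncomputable section

namespace Vale.Agent.P032.H374

open Vale.Agent.P032.Six Vale.Agent.P032.H892 Vale.Agent.P032.H913 Vale.Agent.P032.S5.H767 Vale.Agent.P032.H357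

variable {U : Fin 6 → Set ℂ} {T : ℂ → Set (Fin 6)} {x : ℂ}

/-! ### regions in polar coordinates -/

/-- twice the cosine of the angle to the direction `u` -/
def cc (u θ : ℝ) : ℝ := 2 * Real.cos ((θ - u) * (Real.pi / 3))

theorem continuous_cc (u : ℝ) : Continuous (cc u) := by unfold cc; fun_prop

theorem cc_half (u θ : ℝ) : cc (u + 3) θ = -cc u θ := by
  unfold cc
  have : (θ - (u + 3)) * (Real.pi / 3) = (θ - u) * (Real.pi / 3) - Real.pi := by ring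
  rw [this, Real.cos_sub_pi]; ring

theorem dist_lt {p : ℝ × ℝ} (hp : 0 < p.1) (u : ℝ) : dist (po x p) (pt x u) < 1 ↔ p.1 < cc u p.2 := by
  have h1 := sq_dist_po x p.1 p.2 u
  have h2 : (dist (po x p) (pt x u)) ^ 2 = 1 - p.1 * (cc u p.2 - p.1) := by
    rw [show po x p = po x (p.1, p.2) from rfl, h1]; unfold cc; ring
  have h3 : 0 ≤ dist (po x p) (pt x u) := dist_nonneg
  constructor
  · intro h
    have h4 : (dist (po x p) (pt x u)) ^ 2 < 1 := by nlinarith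
    rw [h2] at h4
    have h5 : 0 < p.1 * (cc u p.2 - p.1) := by linarith
    have := (mul_pos_iff_of_pos_left hp).1 h5
    linarith
  · intro h
    have h5 : 0 < p.1 * (cc u p.2 - p.1) := mul_pos hp (by linarith)
    nlinarith

theorem zn_one {p : ℝ × ℝ} (hp : 0 < p.1) (u : ℝ) : Zn x (dir u) 1 (po x p) ↔ p.1 < cc u p.2 := by
  rw [← dist_lt (x := x) hp u, pt_eq]
  simp [Zn]

theorem zn_three {p : ℝ × ℝ} (hp : 0 < p.1) (u : ℝ) : Zn x (dir u) 3 (po x p) ↔ p.1 < -cc u p.2 := by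
  have e : x - dir u = pt x (u + 3) := by rw [pt_eq, dir_add_three]; ring
  rw [← cc_half, ← dist_lt (x := x) hp (u + 3), ← e]
  simp [Zn]

theorem zn_two {p : ℝ × ℝ} (hp : 0 < p.1) (u : ℝ) : Zn x (dir u) 2 (po x p) ↔ |cc u p.2| ≤ p.1 := by
  have h1 := zn_one (x := x) hp u
  have h3 := zn_three (x := x) hp u
  have h2 : Zn x (dir u) 2 (po x p) ↔ ¬ Zn x (dir u) 1 (po x p) ∧ ¬ Zn x (dir u) 3 (po x p) := by
    simp [Zn]
  rw [h2, h1, h3, not_lt, not_lt, abs_le]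
  constructor
  · rintro ⟨h4, h5⟩; exact ⟨by linarith, h4⟩
  · rintro ⟨h4, h5⟩; exact ⟨h5, by linarith⟩

/-- a region between two graphs -/
def Reg (θl θr : ℝ) (m M : ℝ → ℝ) : Set (ℝ × ℝ) := {p | p.2 ∈ Ioo θl θr ∧ m p.2 < p.1 ∧ p.1 < M p.2}

theorem reg_pre {θl θr : ℝ} {m M : ℝ → ℝ} (hm : Continuous m) (hM : Continuous M)
    (h : ∀ θ ∈ Ioo θl θr, m θ < M θ) : IsPreconnected (Reg θl θr m M) := by
  have e : Reg θl θr m M = (fun q : ℝ × ℝ => (m q.2 + q.1 * (M q.2 - m q.2), q.2)) ''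
      (Ioo (0 : ℝ) 1 ×ˢ Ioo θl θr) := by
    ext p
    constructor
    · rintro ⟨h1, h2, h3⟩
      have h4 : 0 < M p.2 - m p.2 := by linarith [h p.2 h1]
      refine ⟨((p.1 - m p.2) / (M p.2 - m p.2), p.2), ⟨⟨by
        apply div_pos _ h4; linarith, by
        rw [div_lt_one h4]; linarith⟩, h1⟩, ?_⟩
      apply Prod.ext
      · show m p.2 + (p.1 - m p.2) / (M p.2 - m p.2) * (M p.2 - m p.2) = p.1
        rw [div_mul_cancel₀ _ h4.ne']; ring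
      · rfl
    · rintro ⟨q, ⟨h1, h2⟩, rfl⟩
      have h4 : 0 < M q.2 - m q.2 := by linarith [h q.2 h2]
      refine ⟨h2, ?_, ?_⟩
      · show m q.2 < m q.2 + q.1 * (M q.2 - m q.2)
        have := mul_pos h1.1 h4
        linarith
      · show m q.2 + q.1 * (M q.2 - m q.2) < M q.2
        have := mul_lt_mul_of_pos_right h1.2 h4
        linarith
  rw [e]
  exact (isPreconnected_Ioo.prod isPreconnected_Ioo).image _ (by fun_prop)

/-! ### the wall graph on a region -/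

/-- conclusion of all the statements: a wall, or all colours -/
def WG (T : ℂ → Set (Fin 6)) (x : ℂ) (B : Set (Fin 6)) (Oc : Fin 6 → Prop) : Prop :=
  (∃ i ∈ B, ∃ l ∉ B, Oc i ∧ Oc l ∧ Wll T x i l) ∨ ∀ q, Oc q

theorem wall_of_region (h : Irr U T) (hmin : MnK U T) {Oc : Fin 6 → Prop} {B : Set (Fin 6)} {i l : Fin 6} (hi : i ∈ B)
    (hl : l ∉ B) (hR : ∀ δ > 0, ∃ R : Set (ℝ × ℝ), IsPreconnected R ∧ (∀ p ∈ R, 0 < p.1 ∧ p.1 < δ) ∧
      (∀ q, ¬ Oc q → ∀ p ∈ R, q ∉ T (po x p)) ∧ (∃ p ∈ R, i ∈ T (po x p)) ∧ ∃ p ∈ R, l ∈ T (po x p)) :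
    WG T x B Oc := by
  by_contra hcon
  unfold WG at hcon
  push Not at hcon
  obtain ⟨hno, q, hq⟩ := hcon
  obtain ⟨r, hr, hg⟩ := germ_part h hmin x
  obtain ⟨R, hR1, hR2, hR3, ⟨pi, hpi, hii⟩, pl, hpl, hll⟩ := hR r hr
  have hsub : po x '' R ⊆ ball x r := by
    rintro _ ⟨p, hp, rfl⟩
    obtain ⟨h1, h2⟩ := hR2 p hp
    rw [mem_ball, dist_eq_norm]
    have : po x p - x = (p.1 : ℂ) * cis (p.2 * (Real.pi / 3)) := by unfold po; ring
    rw [this, norm_mul, norm_cis, mul_one, Complex.norm_real, Real.norm_of_nonneg h1.le]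
    exact h2
  have hK := hg _ hsub (hR1.image _ (continuous_po x).continuousOn) B ?_ ?_
  · rcases hK with h1 | h1
    · exact hl (h1 _ ⟨pl, hpl, rfl⟩ hll)
    · exact h1 _ ⟨pi, hpi, rfl⟩ hii hi
  · rintro _ ⟨p, hp, rfl⟩
    refine five_le ?_ B
    have h1 : T (po x p) ⊆ {q}ᶜ := fun m hm hmq => hR3 q hq p hp (by rw [mem_singleton_iff.1 hmq] at hm; exact hm)
    have h2 := Set.ncard_le_ncard h1 (Set.toFinite _)
    have h3 : (({q} : Set (Fin 6))ᶜ).ncard = 5 := by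
      rw [Set.ncard_compl, Set.ncard_singleton]; simp
    omega
  · rintro _ ⟨p, hp, rfl⟩ i' hi' l' hl' h1 h2
    refine hno i' hi' l' hl' ?_ ?_
    · by_contra h3; exact hR3 i' h3 p hp h1
    · by_contra h3; exact hR3 l' h3 p hp h2

theorem not_T (h : Irr U T) {p : ℝ × ℝ} (hp : 0 < p.1) {q : Fin 6}
    (hev : ∀ᶠ p' in 𝓝 p, p' ∉ PS (Sq T q) x) : q ∉ T (po x p) := by
  intro hq
  have h2 := freq_lift (P := fun w => T w = {q}) hp (h.pure _ q hq)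
  have h3 : ∀ᶠ p' in 𝓝 p, 0 < p'.1 := continuous_fst.continuousAt.eventually_const_lt hp
  obtain ⟨p', h4, h5, h6⟩ := (h2.and_eventually (h3.and hev)).exists
  exact h6 ⟨h5, h4⟩

/-- regions which shrink to one direction -/
theorem wall_point (h : Irr U T) (hmin : MnK U T) {θ : ℝ} {Z : Set (ℝ × ℝ)} (hZ : IsOpen Z) {Oc : Fin 6 → Prop}
    (hOc : ∀ q, (∃ᶠ p in 𝓝 ((0 : ℝ), θ), p ∈ PS (Sq T q) x ∧ p ∈ Z) → Oc q)
    (hreg : ∀ V ∈ 𝓝 ((0 : ℝ), θ), ∃ R : Set (ℝ × ℝ), IsPreconnected R ∧ R ⊆ V ∧ (∀ p ∈ R, 0 < p.1 ∧ p ∈ Z) ∧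
      ∀ᶠ p in 𝓝 ((0 : ℝ), θ), 0 < p.1 → p ∈ Z → p ∈ R) {B : Set (Fin 6)} {i l : Fin 6} (hi : i ∈ B) (hl : l ∉ B)
    (h1 : ∃ᶠ p in 𝓝 ((0 : ℝ), θ), p ∈ PS (Sq T i) x ∧ p ∈ Z)
    (h2 : ∃ᶠ p in 𝓝 ((0 : ℝ), θ), p ∈ PS (Sq T l) x ∧ p ∈ Z) : WG T x B Oc := by
  refine wall_of_region h hmin hi hl fun δ hδ => ?_
  have k1 : ∀ᶠ p in 𝓝 ((0 : ℝ), θ), ∀ q, ¬ Oc q → ¬ (p ∈ PS (Sq T q) x ∧ p ∈ Z) := by
    rw [eventually_all]
    intro q
    by_cases hq : Oc q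
    · exact Eventually.of_forall fun _ h3 => absurd hq h3
    · exact (not_frequently.1 fun h3 => hq (hOc q h3)).mono fun _ h3 _ => h3
  have k2 : ∀ᶠ p : ℝ × ℝ in 𝓝 ((0 : ℝ), θ), p.1 < δ := continuous_fst.continuousAt.eventually_lt_const hδ
  obtain ⟨R, r1, r2, r3, r4⟩ := hreg _ (inter_mem k1.eventually_nhds k2)
  refine ⟨R, r1, fun p hp => ⟨(r3 p hp).1, (r2 hp).2⟩, fun q hq p hp => ?_, ?_, ?_⟩
  · refine not_T h (r3 p hp).1 ?_
    have k3 : ∀ᶠ p' in 𝓝 p, ∀ q, ¬ Oc q → ¬ (p' ∈ PS (Sq T q) x ∧ p' ∈ Z) := (r2 hp).1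
    filter_upwards [k3, hZ.mem_nhds (r3 p hp).2] with p' h3 h4 h5
    exact h3 q hq ⟨h5, h4⟩
  · obtain ⟨p, ⟨h3, h4⟩, h5⟩ := (h1.and_eventually r4).exists
    refine ⟨p, h5 h3.1 h4, ?_⟩
    have h6 : T (po x p) = {i} := h3.2
    rw [h6]; rfl
  · obtain ⟨p, ⟨h3, h4⟩, h5⟩ := (h2.and_eventually r4).exists
    refine ⟨p, h5 h3.1 h4, ?_⟩
    have h6 : T (po x p) = {l} := h3.2
    rw [h6]; rfl

/-- regions over an interval of directions -/
theorem wall_interval (h : Irr U T) (hmin : MnK U T) {α β : ℝ} {M : ℝ → ℝ} (hM : Continuous M)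
    (hM0 : ∀ θ ∈ Ioo α β, 0 < M θ) {Oc : Fin 6 → Prop}
    (hOc : ∀ θ ∈ Icc α β, ∀ q, (∃ᶠ p in 𝓝 ((0 : ℝ), θ), p ∈ PS (Sq T q) x ∧ p.1 < M p.2) → Oc q)
    {B : Set (Fin 6)} {i l : Fin 6} (hi : i ∈ B) (hl : l ∉ B)
    (h1 : ∃ θ, ∃ᶠ p in 𝓝 ((0 : ℝ), θ), p ∈ PS (Sq T i) x ∧ p.1 < M p.2 ∧ p.2 ∈ Ioo α β)
    (h2 : ∃ θ, ∃ᶠ p in 𝓝 ((0 : ℝ), θ), p ∈ PS (Sq T l) x ∧ p.1 < M p.2 ∧ p.2 ∈ Ioo α β) : WG T x B Oc := by
  refine wall_of_region h hmin hi hl fun δ hδ => ?_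
  have k1 : ∀ᶠ r : ℝ in 𝓝 0, ∀ θ ∈ Icc α β, ∀ q, ¬ Oc q → ¬ (((r, θ) : ℝ × ℝ) ∈ PS (Sq T q) x ∧ r < M θ) := by
    refine isCompact_Icc.eventually_forall_of_forall_eventually
      (P := fun r θ => ∀ q, ¬ Oc q → ¬ (((r, θ) : ℝ × ℝ) ∈ PS (Sq T q) x ∧ r < M θ)) fun θ hθ => ?_
    rw [eventually_all]
    intro q
    by_cases hq : Oc q
    · exact Eventually.of_forall fun _ h3 => absurd hq h3
    · exact (not_frequently.1 fun h3 => hq (hOc θ hθ q h3)).mono fun _ h3 _ => h3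
  obtain ⟨η, hη, hη1⟩ := Metric.eventually_nhds_iff.1 k1
  set ε : ℝ := min δ η with hε
  have hε0 : 0 < ε := lt_min hδ hη
  have hpt : ∀ j, (∃ θ, ∃ᶠ p in 𝓝 ((0 : ℝ), θ), p ∈ PS (Sq T j) x ∧ p.1 < M p.2 ∧ p.2 ∈ Ioo α β) →
      ∃ p ∈ Reg α β (fun _ => 0) (fun θ => min ε (M θ)), j ∈ T (po x p) := by
    rintro j ⟨θ, hj⟩
    have k2 : ∀ᶠ p : ℝ × ℝ in 𝓝 ((0 : ℝ), θ), p.1 < ε := continuous_fst.continuousAt.eventually_lt_const hε0
    obtain ⟨p, ⟨h3, h4, h5⟩, h6⟩ := (hj.and_eventually k2).exists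
    refine ⟨p, ⟨h5, h3.1, lt_min h6 h4⟩, ?_⟩
    have h7 : T (po x p) = {j} := h3.2
    rw [h7]; rfl
  refine ⟨Reg α β (fun _ => 0) (fun θ => min ε (M θ)), reg_pre continuous_const (continuous_const.min hM)
    fun θ hθ => lt_min hε0 (hM0 θ hθ), fun p hp => ⟨hp.2.1, lt_of_lt_of_le hp.2.2
      ((min_le_left _ _).trans (min_le_left _ _))⟩, fun q hq p hp => ?_, hpt i h1, hpt l h2⟩
  refine not_T h hp.2.1 ?_
  have e1 : ∀ᶠ p' : ℝ × ℝ in 𝓝 p, p'.2 ∈ Ioo α β :=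
    continuous_snd.continuousAt.eventually_mem (isOpen_Ioo.mem_nhds hp.1)
  have e2 : ∀ᶠ p' : ℝ × ℝ in 𝓝 p, p'.1 < M p'.2 :=
    (continuous_fst.continuousAt).eventually_lt (hM.comp continuous_snd).continuousAt
      (lt_of_lt_of_le hp.2.2 (min_le_right _ _))
  have e3 : ∀ᶠ p' : ℝ × ℝ in 𝓝 p, 0 < p'.1 := continuous_fst.continuousAt.eventually_const_lt hp.2.1
  have e4 : ∀ᶠ p' : ℝ × ℝ in 𝓝 p, p'.1 < ε :=
    continuous_fst.continuousAt.eventually_lt_const (lt_of_lt_of_le hp.2.2 (min_le_left _ _))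
  filter_upwards [e1, e2, e3, e4] with p' h3 h4 h5 h6 h7
  refine hη1 (y := p'.1) ?_ p'.2 (Ioo_subset_Icc_self h3) q hq ⟨h7, h4⟩
  rw [Real.dist_eq, sub_zero, abs_of_pos h5]
  exact lt_of_lt_of_le h6 (min_le_right _ _)

/-! ### shapes -/

theorem box_mem {θ : ℝ} {V : Set (ℝ × ℝ)} (hV : V ∈ 𝓝 ((0 : ℝ), θ)) : ∃ ε > 0, ε ≤ 1 ∧
    ∀ p : ℝ × ℝ, 0 < p.1 → p.1 < ε → |p.2 - θ| < ε → p ∈ V := by
  obtain ⟨ε, hε, hb⟩ := Metric.mem_nhds_iff.1 hV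
  refine ⟨min ε 1, lt_min hε one_pos, min_le_right _ _, fun p h1 h2 h3 => hb ?_⟩
  rw [mem_ball, Prod.dist_eq, Real.dist_eq, Real.dist_eq, sub_zero, abs_of_pos h1]
  exact max_lt (lt_of_lt_of_le h2 (min_le_left _ _)) (lt_of_lt_of_le h3 (min_le_left _ _))

theorem ev_box (θ : ℝ) {ε : ℝ} (hε : 0 < ε) : ∀ᶠ p : ℝ × ℝ in 𝓝 ((0 : ℝ), θ), p.1 < ε ∧ |p.2 - θ| < ε := by
  have h1 : ∀ᶠ p : ℝ × ℝ in 𝓝 ((0 : ℝ), θ), p.1 < ε := continuous_fst.continuousAt.eventually_lt_const hε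
  have h2 : ∀ᶠ p : ℝ × ℝ in 𝓝 ((0 : ℝ), θ), |p.2 - θ| < ε := by
    have hc : Continuous fun p : ℝ × ℝ => |p.2 - θ| := by fun_prop
    refine hc.continuousAt.eventually_lt_const ?_
    simpa using hε
  exact h1.and h2

/-- above a graph -/
theorem regA {θ : ℝ} {m : ℝ → ℝ} (hm : Continuous m) (h0 : m θ ≤ 0) : ∀ V ∈ 𝓝 ((0 : ℝ), θ), ∃ R : Set (ℝ × ℝ),
    IsPreconnected R ∧ R ⊆ V ∧ (∀ p ∈ R, 0 < p.1 ∧ p ∈ {p : ℝ × ℝ | m p.2 < p.1}) ∧
      ∀ᶠ p in 𝓝 ((0 : ℝ), θ), 0 < p.1 → p ∈ {p : ℝ × ℝ | m p.2 < p.1} → p ∈ R := by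
  intro V hV
  obtain ⟨ε, hε, hε1, hb⟩ := box_mem hV
  have h1 : ∀ᶠ t in 𝓝 θ, m t < ε := hm.continuousAt.eventually_lt_const (lt_of_le_of_lt h0 hε)
  obtain ⟨η', hη', hη1⟩ := Metric.eventually_nhds_iff.1 h1
  set η := min η' ε with hη
  have hη0 : 0 < η := lt_min hη' hε
  have habs : ∀ t, t ∈ Ioo (θ - η) (θ + η) ↔ |t - θ| < η := by
    intro t
    rw [abs_lt]
    constructor
    · rintro ⟨h2, h3⟩; exact ⟨by linarith, by linarith⟩
    · rintro ⟨h2, h3⟩; exact ⟨by linarith, by linarith⟩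
  refine ⟨Reg (θ - η) (θ + η) (fun t => max 0 (m t)) (fun _ => ε), reg_pre (continuous_const.max hm) continuous_const
    fun t ht => max_lt hε (hη1 ?_), fun p hp => ?_, fun p hp => ?_, ?_⟩
  · rw [Real.dist_eq]
    exact lt_of_lt_of_le ((habs t).1 ht) (min_le_left _ _)
  · exact hb p (lt_of_le_of_lt (le_max_left _ _) hp.2.1) hp.2.2
      (lt_of_lt_of_le ((habs _).1 hp.1) (min_le_right _ _))
  · exact ⟨lt_of_le_of_lt (le_max_left _ _) hp.2.1, lt_of_le_of_lt (le_max_right _ _) hp.2.1⟩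
  · filter_upwards [ev_box θ hη0] with p hp h2 h3
    exact ⟨(habs _).2 hp.2, max_lt h2 h3, lt_of_lt_of_le hp.1 (min_le_right _ _)⟩

/-- below a graph, on the left side -/
theorem regL {θ : ℝ} {M : ℝ → ℝ} (hM : Continuous M) (h1 : ∀ t, θ - 1 < t → t < θ → 0 < M t)
    (h2 : ∀ t, θ ≤ t → t < θ + 1 → M t ≤ 0) : ∀ V ∈ 𝓝 ((0 : ℝ), θ), ∃ R : Set (ℝ × ℝ),
    IsPreconnected R ∧ R ⊆ V ∧ (∀ p ∈ R, 0 < p.1 ∧ p ∈ {p : ℝ × ℝ | p.1 < M p.2}) ∧
      ∀ᶠ p in 𝓝 ((0 : ℝ), θ), 0 < p.1 → p ∈ {p : ℝ × ℝ | p.1 < M p.2} → p ∈ R := by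
  intro V hV
  obtain ⟨ε, hε, hε1, hb⟩ := box_mem hV
  refine ⟨Reg (θ - ε) θ (fun _ => 0) (fun t => min ε (M t)), reg_pre continuous_const (continuous_const.min hM)
    fun t ht => lt_min hε (h1 t (by linarith [ht.1]) ht.2), fun p hp => ?_, fun p hp => ?_, ?_⟩
  · refine hb p hp.2.1 (lt_of_lt_of_le hp.2.2 (min_le_left _ _)) ?_
    rw [abs_lt]
    exact ⟨by linarith [hp.1.1], by linarith [hp.1.2]⟩
  · exact ⟨hp.2.1, lt_of_lt_of_le hp.2.2 (min_le_right _ _)⟩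
  · filter_upwards [ev_box θ hε] with p hp h3 h4
    have h4 : p.1 < M p.2 := h4
    have h5 := abs_lt.1 hp.2
    refine ⟨⟨by linarith, ?_⟩, h3, lt_min hp.1 h4⟩
    by_contra hcon
    push Not at hcon
    have := h2 p.2 hcon (by linarith)
    linarith

/-- below a graph, on the right side -/
theorem regR {θ : ℝ} {M : ℝ → ℝ} (hM : Continuous M) (h1 : ∀ t, θ < t → t < θ + 1 → 0 < M t)
    (h2 : ∀ t, θ - 1 < t → t ≤ θ → M t ≤ 0) : ∀ V ∈ 𝓝 ((0 : ℝ), θ), ∃ R : Set (ℝ × ℝ),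
    IsPreconnected R ∧ R ⊆ V ∧ (∀ p ∈ R, 0 < p.1 ∧ p ∈ {p : ℝ × ℝ | p.1 < M p.2}) ∧
      ∀ᶠ p in 𝓝 ((0 : ℝ), θ), 0 < p.1 → p ∈ {p : ℝ × ℝ | p.1 < M p.2} → p ∈ R := by
  intro V hV
  obtain ⟨ε, hε, hε1, hb⟩ := box_mem hV
  refine ⟨Reg θ (θ + ε) (fun _ => 0) (fun t => min ε (M t)), reg_pre continuous_const (continuous_const.min hM)
    fun t ht => lt_min hε (h1 t ht.1 (by linarith [ht.2])), fun p hp => ?_, fun p hp => ?_, ?_⟩
  · refine hb p hp.2.1 (lt_of_lt_of_le hp.2.2 (min_le_left _ _)) ?_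
    rw [abs_lt]
    exact ⟨by linarith [hp.1.1], by linarith [hp.1.2]⟩
  · exact ⟨hp.2.1, lt_of_lt_of_le hp.2.2 (min_le_right _ _)⟩
  · filter_upwards [ev_box θ hε] with p hp h3 h4
    have h4 : p.1 < M p.2 := h4
    have h5 := abs_lt.1 hp.2
    refine ⟨⟨?_, by linarith⟩, h3, lt_min hp.1 h4⟩
    by_contra hcon
    push Not at hcon
    have := h2 p.2 (by linarith) hcon
    linarith

theorem cc_pos {u θ : ℝ} (h1 : u - 3 / 2 < θ) (h2 : θ < u + 3 / 2) : 0 < cc u θ := by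
  unfold cc
  have hpi := Real.pi_pos
  refine mul_pos two_pos (Real.cos_pos_of_mem_Ioo ⟨?_, ?_⟩) <;> nlinarith

theorem cc_neg {u θ : ℝ} (h1 : u + 3 / 2 < θ) (h2 : θ < u + 9 / 2) : cc u θ < 0 := by
  have := cc_pos (u := u + 3) (θ := θ) (by linarith) (by linarith)
  rw [cc_half] at this
  linarith

theorem cc_ray (a : ℕ → ℝ) (j : ℕ) : cc (a j) (ra a j) = 0 := by
  unfold cc ra
  have : (a j + 3 / 2 - a j) * (Real.pi / 3) = Real.pi / 2 := by ring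
  rw [this, Real.cos_pi_div_two, mul_zero]

variable {a : ℕ → ℝ} {j : ℕ}

theorem cl_one_iff {q : Fin 6} : Cl (Sq T q) x a 1 j ↔
    ∃ᶠ p in 𝓝 ((0 : ℝ), ra a j), p ∈ PS (Sq T q) x ∧ p.1 < cc (a j) p.2 := by
  rw [cl_pos one_ne_zero]
  refine frequently_congr (Eventually.of_forall fun p => and_congr_right fun hp => zn_one hp.1 _)

theorem cl_three_iff {q : Fin 6} : Cl (Sq T q) x a 3 j ↔
    ∃ᶠ p in 𝓝 ((0 : ℝ), ra a j), p ∈ PS (Sq T q) x ∧ p.1 < -cc (a j) p.2 := by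
  rw [cl_pos three_ne_zero]
  refine frequently_congr (Eventually.of_forall fun p => and_congr_right fun hp => zn_three hp.1 _)

theorem cl_two_iff' {q : Fin 6} : Cl (Sq T q) x a 2 j ↔
    ∃ᶠ p in 𝓝 ((0 : ℝ), ra a j), p ∈ PS (Sq T q) x ∧ |cc (a j) p.2| ≤ p.1 := by
  rw [cl_pos two_ne_zero]
  refine frequently_congr (Eventually.of_forall fun p => and_congr_right fun hp => zn_two hp.1 _)

theorem pure_open' (h : Irr U T) (q : Fin 6) : IsOpen {w | T w = {q}} := by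
  rw [isOpen_iff_mem_nhds]
  intro w (hw : T w = {q})
  filter_upwards [h.nhd w] with v hv
  rw [hw] at hv
  obtain ⟨m, hm⟩ := h.ne v
  have : m = q := hv hm
  exact hv.antisymm (by rintro m' rfl; exact this ▸ hm)

theorem cl_two_iff (h : Irr U T) {q : Fin 6} : Cl (Sq T q) x a 2 j ↔
    ∃ᶠ p in 𝓝 ((0 : ℝ), ra a j), p ∈ PS (Sq T q) x ∧ |cc (a j) p.2| < p.1 := by
  rw [cl_two_iff']
  refine ⟨fun h1 => ?_, fun h1 => h1.mono fun p hp => ⟨hp.1, hp.2.le⟩⟩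
  by_contra hcon
  obtain ⟨p, ⟨hp1, hp2⟩, hp3⟩ := (h1.and_eventually (not_frequently.1 hcon).eventually_nhds).exists
  have hT : T (po x p) = {q} := hp1.2
  have e1 : ∀ᶠ p' in 𝓝 p, T (po x p') = {q} :=
    (continuous_po x).continuousAt.eventually_mem ((pure_open' h q).mem_nhds hT)
  have ht : Tendsto (fun t : ℝ => (p.1 + t, p.2)) (𝓝[>] 0) (𝓝 p) := by
    have hc : Continuous fun t : ℝ => (p.1 + t, p.2) := by fun_prop
    have := hc.tendsto 0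
    rw [add_zero] at this
    exact this.mono_left nhdsWithin_le_nhds
  obtain ⟨t, ⟨h3, h4⟩, h5⟩ := ((ht.eventually (hp3.and e1)).and self_mem_nhdsWithin).exists
  have h5 : 0 < t := h5
  refine h3 ⟨⟨?_, h4⟩, ?_⟩
  · show 0 < p.1 + t
    linarith [hp1.1]
  · show |cc (a j) p.2| < p.1 + t
    linarith

/-! ### one cell -/

theorem point_wall {k : ℕ} (hk0 : k ≠ 0) (hk : k ≤ 3) (h : Irr U T) (hmin : MnK U T) {B : Set (Fin 6)} {i l : Fin 6}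
    (hi : i ∈ B) (hl : l ∉ B) (h1 : Cl (Sq T i) x a k j) (h2 : Cl (Sq T l) x a k j) :
    WG T x B (fun q => Cl (Sq T q) x a k j) := by
  have hr : ra a j = a j + 3 / 2 := rfl
  have hcc := continuous_cc (a j)
  have hk' : k = 1 ∨ k = 2 ∨ k = 3 := by omega
  rcases hk' with rfl | rfl | rfl
  · refine wall_point h hmin (Z := {p : ℝ × ℝ | p.1 < cc (a j) p.2}) (θ := ra a j)
      (isOpen_lt continuous_fst (hcc.comp continuous_snd)) (fun q hq => cl_one_iff.2 hq)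
      (regL hcc (fun t h3 h4 => cc_pos (by linarith) (by linarith)) fun t h3 h4 => ?_) hi hl (cl_one_iff.1 h1)
      (cl_one_iff.1 h2)
    rcases h3.eq_or_lt with h5 | h5
    · rw [← h5, cc_ray]
    · exact (cc_neg (by linarith) (by linarith)).le
  · refine wall_point h hmin (Z := {p : ℝ × ℝ | |cc (a j) p.2| < p.1}) (θ := ra a j)
      (isOpen_lt (hcc.comp continuous_snd).abs continuous_fst) (fun q hq => (cl_two_iff h).2 hq)
      (regA hcc.abs (by rw [cc_ray, abs_zero])) hi hl ((cl_two_iff h).1 h1) ((cl_two_iff h).1 h2)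
  · refine wall_point h hmin (Z := {p : ℝ × ℝ | p.1 < -cc (a j) p.2}) (θ := ra a j)
      (isOpen_lt continuous_fst (hcc.comp continuous_snd).neg) (fun q hq => cl_three_iff.2 hq)
      (regR (M := fun t => -cc (a j) t) hcc.neg (fun t h3 h4 => ?_) fun t h3 h4 => ?_) hi hl (cl_three_iff.1 h1)
      (cl_three_iff.1 h2)
    · have := cc_neg (u := a j) (θ := t) (by linarith) (by linarith)
      linarith
    · rcases h4.eq_or_lt with h5 | h5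
      · rw [h5, cc_ray, neg_zero]
      · have := cc_pos (u := a j) (θ := t) (by linarith) (by linarith)
        linarith

theorem sector_wall (h : Irr U T) (hmin : MnK U T) {B : Set (Fin 6)} {i l : Fin 6}
    (hi : i ∈ B) (hl : l ∉ B) (h1 : Cl (Sq T i) x a 0 j) (h2 : Cl (Sq T l) x a 0 j) :
    WG T x B (fun q => Cl (Sq T q) x a 0 j) := by
  obtain ⟨θ₁, ⟨a1, b1⟩, d1⟩ := cl_zero.1 h1
  obtain ⟨θ₂, ⟨a2, b2⟩, d2⟩ := cl_zero.1 h2
  obtain ⟨α, hα1, hα2⟩ := exists_between (lt_min a1 a2)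
  obtain ⟨β, hβ1, hβ2⟩ := exists_between (max_lt b1 b2)
  have key : ∀ q θ, θ ∈ DS (Sq T q) x → α < θ → θ < β →
      ∃ θ, ∃ᶠ p in 𝓝 ((0 : ℝ), θ), p ∈ PS (Sq T q) x ∧ p.1 < (fun _ : ℝ => (1 : ℝ)) p.2 ∧ p.2 ∈ Ioo α β := by
    intro q θ hd h3 h4
    have hd : ∃ᶠ p in 𝓝 ((0 : ℝ), θ), p ∈ PS (Sq T q) x := hd
    have e1 : ∀ᶠ p : ℝ × ℝ in 𝓝 ((0 : ℝ), θ), p.1 < 1 := continuous_fst.continuousAt.eventually_lt_const one_pos
    have e2 : ∀ᶠ p : ℝ × ℝ in 𝓝 ((0 : ℝ), θ), p.2 ∈ Ioo α β :=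
      continuous_snd.continuousAt.eventually_mem (isOpen_Ioo.mem_nhds ⟨h3, h4⟩)
    exact ⟨θ, (hd.and_eventually (e1.and e2))⟩
  refine wall_interval h hmin (α := α) (β := β) (M := fun _ => 1) continuous_const (fun _ _ => one_pos)
    (fun θ hθ q hq => cl_zero.2 ⟨θ, ⟨lt_of_lt_of_le hα1 hθ.1, lt_of_le_of_lt hθ.2 hβ2⟩, hq.mono fun p hp => hp.1⟩) hi hl
    (key i θ₁ d1 (lt_of_lt_of_le hα2 (min_le_left _ _)) (lt_of_le_of_lt (le_max_left _ _) hβ1))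
    (key l θ₂ d2 (lt_of_lt_of_le hα2 (min_le_right _ _)) (lt_of_le_of_lt (le_max_right _ _) hβ1))

/-- **The wall graph of a cell.** -/
theorem cell_wall {k : ℕ} (hk : k ≤ 3) (h : Irr U T) (hmin : MnK U T) {B : Set (Fin 6)} {i l : Fin 6}
    (hi : i ∈ B) (hl : l ∉ B) (h1 : Cl (Sq T i) x a k j) (h2 : Cl (Sq T l) x a k j) :
    WG T x B (fun q => Cl (Sq T q) x a k j) := by
  by_cases hk0 : k = 0
  · subst hk0; exact sector_wall h hmin hi hl h1 h2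
  · exact point_wall hk0 hk h hmin hi hl h1 h2

/-! ### two adjacent cells -/

/-- the zones 1 and 2 of a ray -/
theorem union12 (h : Irr U T) (hmin : MnK U T) {B : Set (Fin 6)} {i l : Fin 6} (hi : i ∈ B) (hl : l ∉ B)
    (h1 : Cl (Sq T i) x a 1 j ∨ Cl (Sq T i) x a 2 j) (h2 : Cl (Sq T l) x a 1 j ∨ Cl (Sq T l) x a 2 j) :
    WG T x B (fun q => Cl (Sq T q) x a 1 j ∨ Cl (Sq T q) x a 2 j) := by
  have hcc := continuous_cc (a j)
  have key : ∀ q, (Cl (Sq T q) x a 1 j ∨ Cl (Sq T q) x a 2 j) →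
      ∃ᶠ p in 𝓝 ((0 : ℝ), ra a j), p ∈ PS (Sq T q) x ∧ p ∈ {p : ℝ × ℝ | -cc (a j) p.2 < p.1} := by
    rintro q (h3 | h3)
    · refine (cl_one_iff.1 h3).mono fun p hp => ⟨hp.1, ?_⟩
      have := hp.1.1
      show -cc (a j) p.2 < p.1
      linarith [hp.2]
    · refine ((cl_two_iff h).1 h3).mono fun p hp => ⟨hp.1, ?_⟩
      show -cc (a j) p.2 < p.1
      linarith [neg_abs_le (cc (a j) p.2), hp.2]
  refine wall_point h hmin (Z := {p : ℝ × ℝ | -cc (a j) p.2 < p.1}) (θ := ra a j)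
    (isOpen_lt (hcc.comp continuous_snd).neg continuous_fst) (fun q hq => ?_)
    (regA (m := fun t => -cc (a j) t) hcc.neg (by rw [cc_ray, neg_zero])) hi hl (key i h1) (key l h2)
  have h3 : (∃ᶠ p in 𝓝 ((0 : ℝ), ra a j), p ∈ PS (Sq T q) x ∧ p.1 < cc (a j) p.2) ∨
      ∃ᶠ p in 𝓝 ((0 : ℝ), ra a j), p ∈ PS (Sq T q) x ∧ |cc (a j) p.2| ≤ p.1 := by
    refine frequently_or_distrib.1 (hq.mono fun p hp => ?_)
    rcases lt_or_ge p.1 (cc (a j) p.2) with h4 | h4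
    · exact Or.inl ⟨hp.1, h4⟩
    · have h5 : -cc (a j) p.2 < p.1 := hp.2
      exact Or.inr ⟨hp.1, abs_le.2 ⟨by linarith, h4⟩⟩
  exact h3.imp cl_one_iff.2 cl_two_iff'.2

/-- the zones 2 and 3 of a ray -/
theorem union23 (h : Irr U T) (hmin : MnK U T) {B : Set (Fin 6)} {i l : Fin 6} (hi : i ∈ B) (hl : l ∉ B)
    (h1 : Cl (Sq T i) x a 2 j ∨ Cl (Sq T i) x a 3 j) (h2 : Cl (Sq T l) x a 2 j ∨ Cl (Sq T l) x a 3 j) :
    WG T x B (fun q => Cl (Sq T q) x a 2 j ∨ Cl (Sq T q) x a 3 j) := by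
  have hcc := continuous_cc (a j)
  have key : ∀ q, (Cl (Sq T q) x a 2 j ∨ Cl (Sq T q) x a 3 j) →
      ∃ᶠ p in 𝓝 ((0 : ℝ), ra a j), p ∈ PS (Sq T q) x ∧ p ∈ {p : ℝ × ℝ | cc (a j) p.2 < p.1} := by
    rintro q (h3 | h3)
    · refine ((cl_two_iff h).1 h3).mono fun p hp => ⟨hp.1, ?_⟩
      show cc (a j) p.2 < p.1
      linarith [le_abs_self (cc (a j) p.2), hp.2]
    · refine (cl_three_iff.1 h3).mono fun p hp => ⟨hp.1, ?_⟩
      have := hp.1.1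
      show cc (a j) p.2 < p.1
      linarith [hp.2]
  refine wall_point h hmin (Z := {p : ℝ × ℝ | cc (a j) p.2 < p.1}) (θ := ra a j)
    (isOpen_lt (hcc.comp continuous_snd) continuous_fst) (fun q hq => ?_)
    (regA hcc (by rw [cc_ray])) hi hl (key i h1) (key l h2)
  have h3 : (∃ᶠ p in 𝓝 ((0 : ℝ), ra a j), p ∈ PS (Sq T q) x ∧ |cc (a j) p.2| ≤ p.1) ∨
      ∃ᶠ p in 𝓝 ((0 : ℝ), ra a j), p ∈ PS (Sq T q) x ∧ p.1 < -cc (a j) p.2 := by
    refine frequently_or_distrib.1 (hq.mono fun p hp => ?_)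
    rcases lt_or_ge p.1 (-cc (a j) p.2) with h4 | h4
    · exact Or.inr ⟨hp.1, h4⟩
    · have h5 : cc (a j) p.2 < p.1 := hp.2
      exact Or.inl ⟨hp.1, abs_le.2 ⟨by linarith, h5.le⟩⟩
  exact h3.imp cl_two_iff'.2 cl_three_iff.2

section
variable {K : ℕ} (A : Tick K a)
include A

theorem ra_step (j : ℕ) : ra a (j + 1) ≤ ra a j + 1 := by
  unfold ra
  have h1 := A.per j
  have h2 : a (j + 1) ≤ a (j + K) := A.mono.monotone (by have := A.pos; omega)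
  linarith

/-- a sector and the first zone of the next ray -/
theorem union01 (h : Irr U T) (hmin : MnK U T) {B : Set (Fin 6)} {i l : Fin 6} (hi : i ∈ B) (hl : l ∉ B)
    (h1 : Cl (Sq T i) x a 0 j ∨ Cl (Sq T i) x a 1 (j + 1)) (h2 : Cl (Sq T l) x a 0 j ∨ Cl (Sq T l) x a 1 (j + 1)) :
    WG T x B (fun q => Cl (Sq T q) x a 0 j ∨ Cl (Sq T q) x a 1 (j + 1)) := by
  have hcc := continuous_cc (a (j + 1))
  have hst := ra_step A j
  have hlt : ra a j < ra a (j + 1) := by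
    unfold ra; have := A.mono (Nat.lt_succ_self j); linarith [this]
  have hr : ra a (j + 1) = a (j + 1) + 3 / 2 := rfl
  -- the left end
  have key : ∀ q, (Cl (Sq T q) x a 0 j ∨ Cl (Sq T q) x a 1 (j + 1)) → ∃ α', ra a j < α' ∧ ∀ α, ra a j < α → α ≤ α' →
      ∃ θ, ∃ᶠ p in 𝓝 ((0 : ℝ), θ), p ∈ PS (Sq T q) x ∧ p.1 < cc (a (j + 1)) p.2 ∧ p.2 ∈ Ioo α (ra a (j + 1)) := by
    rintro q (h3 | h3)
    · obtain ⟨θ, ⟨h4, h5⟩, hd⟩ := cl_zero.1 h3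
      have hd : ∃ᶠ p in 𝓝 ((0 : ℝ), θ), p ∈ PS (Sq T q) x := hd
      obtain ⟨α', h6, h7⟩ := exists_between h4
      refine ⟨α', h6, fun α h8 h9 => ⟨θ, ?_⟩⟩
      have e1 : ∀ᶠ p : ℝ × ℝ in 𝓝 ((0 : ℝ), θ), p.1 < cc (a (j + 1)) p.2 := by
        refine (continuous_fst.continuousAt).eventually_lt (hcc.comp continuous_snd).continuousAt ?_
        show (0 : ℝ) < cc (a (j + 1)) θ
        exact cc_pos (by linarith) (by linarith)
      have e2 : ∀ᶠ p : ℝ × ℝ in 𝓝 ((0 : ℝ), θ), p.2 ∈ Ioo α (ra a (j + 1)) :=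
        continuous_snd.continuousAt.eventually_mem (isOpen_Ioo.mem_nhds ⟨by linarith, h5⟩)
      exact hd.and_eventually (e1.and e2)
    · obtain ⟨α', h6, h7⟩ := exists_between hlt
      refine ⟨α', h6, fun α h8 h9 => ⟨ra a (j + 1), ?_⟩⟩
      have e2 : ∀ᶠ p : ℝ × ℝ in 𝓝 ((0 : ℝ), ra a (j + 1)), p.2 ∈ Ioo α (ra a (j + 1) + 1) :=
        continuous_snd.continuousAt.eventually_mem (isOpen_Ioo.mem_nhds ⟨by linarith, by linarith⟩)
      refine ((cl_one_iff.1 h3).and_eventually e2).mono fun p ⟨⟨h10, h11⟩, h12, h13⟩ => ⟨h10, h11, h12, ?_⟩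
      by_contra hcon
      push Not at hcon
      have h14 := h10.1
      rcases hcon.eq_or_lt with h15 | h15
      · rw [← h15, cc_ray] at h11; linarith
      · have := cc_neg (u := a (j + 1)) (θ := p.2) (by linarith) (by linarith)
        linarith
  obtain ⟨α₁, b1, c1⟩ := key i h1
  obtain ⟨α₂, b2, c2⟩ := key l h2
  set α := min (min α₁ α₂) (ra a (j + 1)) with hα
  have hα0 : ra a j < α := lt_min (lt_min b1 b2) hlt
  refine wall_interval h hmin (α := α) (β := ra a (j + 1)) (M := cc (a (j + 1))) hcc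
    (fun θ hθ => cc_pos (by linarith [hθ.1]) (by linarith [hθ.2])) (fun θ hθ q hq => ?_) hi hl
    (c1 α hα0 ((min_le_left _ _).trans (min_le_left _ _))) (c2 α hα0 ((min_le_left _ _).trans (min_le_right _ _)))
  rcases hθ.2.eq_or_lt with h3 | h3
  · right
    rw [cl_one_iff, ← h3]; exact hq
  · left
    exact cl_zero.2 ⟨θ, ⟨lt_of_lt_of_le hα0 hθ.1, h3⟩, hq.mono fun p hp => hp.1⟩

/-- the third zone of a ray and the next sector -/
theorem union30 (h : Irr U T) (hmin : MnK U T) {B : Set (Fin 6)} {i l : Fin 6} (hi : i ∈ B) (hl : l ∉ B)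
    (h1 : Cl (Sq T i) x a 3 j ∨ Cl (Sq T i) x a 0 j) (h2 : Cl (Sq T l) x a 3 j ∨ Cl (Sq T l) x a 0 j) :
    WG T x B (fun q => Cl (Sq T q) x a 3 j ∨ Cl (Sq T q) x a 0 j) := by
  have hcc := continuous_cc (a j)
  have hst := ra_step A j
  have hlt : ra a j < ra a (j + 1) := by
    unfold ra; have := A.mono (Nat.lt_succ_self j); linarith [this]
  have hr : ra a j = a j + 3 / 2 := rfl
  have key : ∀ q, (Cl (Sq T q) x a 3 j ∨ Cl (Sq T q) x a 0 j) → ∃ β', β' < ra a (j + 1) ∧ ∀ β, β < ra a (j + 1) →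
      β' ≤ β → ∃ θ, ∃ᶠ p in 𝓝 ((0 : ℝ), θ), p ∈ PS (Sq T q) x ∧ p.1 < -cc (a j) p.2 ∧ p.2 ∈ Ioo (ra a j) β := by
    rintro q (h3 | h3)
    · obtain ⟨β', h6, h7⟩ := exists_between hlt
      refine ⟨β', h7, fun β h8 h9 => ⟨ra a j, ?_⟩⟩
      have e2 : ∀ᶠ p : ℝ × ℝ in 𝓝 ((0 : ℝ), ra a j), p.2 ∈ Ioo (ra a j - 1) β :=
        continuous_snd.continuousAt.eventually_mem (isOpen_Ioo.mem_nhds ⟨by linarith, by linarith⟩)
      refine ((cl_three_iff.1 h3).and_eventually e2).mono fun p ⟨⟨h10, h11⟩, h12, h13⟩ => ⟨h10, h11, ?_, h13⟩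
      by_contra hcon
      push Not at hcon
      have h14 := h10.1
      rcases hcon.eq_or_lt with h15 | h15
      · rw [h15, cc_ray] at h11; linarith
      · have := cc_pos (u := a j) (θ := p.2) (by linarith) (by linarith)
        linarith
    · obtain ⟨θ, ⟨h4, h5⟩, hd⟩ := cl_zero.1 h3
      have hd : ∃ᶠ p in 𝓝 ((0 : ℝ), θ), p ∈ PS (Sq T q) x := hd
      obtain ⟨β', h6, h7⟩ := exists_between h5
      refine ⟨β', h7, fun β h8 h9 => ⟨θ, ?_⟩⟩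
      have e1 : ∀ᶠ p : ℝ × ℝ in 𝓝 ((0 : ℝ), θ), p.1 < -cc (a j) p.2 := by
        refine (continuous_fst.continuousAt).eventually_lt (hcc.comp continuous_snd).neg.continuousAt ?_
        show (0 : ℝ) < -cc (a j) θ
        have := cc_neg (u := a j) (θ := θ) (by linarith) (by linarith)
        linarith
      have e2 : ∀ᶠ p : ℝ × ℝ in 𝓝 ((0 : ℝ), θ), p.2 ∈ Ioo (ra a j) β :=
        continuous_snd.continuousAt.eventually_mem (isOpen_Ioo.mem_nhds ⟨h4, by linarith⟩)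
      exact hd.and_eventually (e1.and e2)
  obtain ⟨β₁, b1, c1⟩ := key i h1
  obtain ⟨β₂, b2, c2⟩ := key l h2
  set β := max (max β₁ β₂) (ra a j) with hβ
  have hβ0 : β < ra a (j + 1) := max_lt (max_lt b1 b2) hlt
  refine wall_interval h hmin (α := ra a j) (β := β) (M := fun t => -cc (a j) t) hcc.neg
    (fun θ hθ => ?_) (fun θ hθ q hq => ?_) hi hl
    (c1 β hβ0 ((le_max_left _ _).trans (le_max_left _ _))) (c2 β hβ0 ((le_max_right _ _).trans (le_max_left _ _)))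
  · have := cc_neg (u := a j) (θ := θ) (by linarith [hθ.1]) (by linarith [hθ.2])
    linarith
  · rcases hθ.1.eq_or_lt with h3 | h3
    · left
      rw [cl_three_iff, h3]; exact hq
    · right
      exact cl_zero.2 ⟨θ, ⟨h3, lt_of_le_of_lt hθ.2 hβ0⟩, hq.mono fun p hp => hp.1⟩

end

/-! ### a wall between two adjacent cells -/

/-- from the union form to the adjacent form -/
theorem adj_of {C D : Fin 6 → Prop} (hC : ∃ q, C q) (hD : ∃ q, D q)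
    (hW : ∀ B : Set (Fin 6), ∀ i ∈ B, ∀ l ∉ B, (C i ∨ D i) → (C l ∨ D l) → WG T x B fun q => C q ∨ D q) :
    (∃ q, C q ∧ D q) ∨ (∃ i l, C i ∧ D l ∧ Wll T x i l) ∨ ∀ q, C q ∨ D q := by
  by_cases hc : ∃ q, C q ∧ D q
  · exact Or.inl hc
  right
  push Not at hc
  obtain ⟨i, hi⟩ := hC
  obtain ⟨l, hl⟩ := hD
  rcases hW {q | C q} i hi l (fun h1 => hc l h1 hl) (Or.inl hi) (Or.inr hl) with ⟨i', h1, l', h2, h3, h4, h5⟩ | h1
  · have h2 : ¬ C l' := h2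
    exact Or.inl ⟨i', l', h1, h4.resolve_left h2, h5⟩
  · exact Or.inr h1

section
variable {K : ℕ} (A : Tick K a)
include A

theorem adj01 (h : Irr U T) (hmin : MnK U T) (x : ℂ) (j : ℕ) :
    (∃ q, Cl (Sq T q) x a 0 j ∧ Cl (Sq T q) x a 1 (j + 1)) ∨
      (∃ i l, Cl (Sq T i) x a 0 j ∧ Cl (Sq T l) x a 1 (j + 1) ∧ Wll T x i l) ∨
        ∀ q, Cl (Sq T q) x a 0 j ∨ Cl (Sq T q) x a 1 (j + 1) :=
  adj_of (CK.cell A h x 0 j (by norm_num)) (CK.cell A h x 1 (j + 1) (by norm_num))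
    fun _ _ hi _ hl h1 h2 => union01 A h hmin hi hl h1 h2

theorem adj12 (h : Irr U T) (hmin : MnK U T) (x : ℂ) (j : ℕ) :
    (∃ q, Cl (Sq T q) x a 1 j ∧ Cl (Sq T q) x a 2 j) ∨
      (∃ i l, Cl (Sq T i) x a 1 j ∧ Cl (Sq T l) x a 2 j ∧ Wll T x i l) ∨
        ∀ q, Cl (Sq T q) x a 1 j ∨ Cl (Sq T q) x a 2 j :=
  adj_of (CK.cell A h x 1 j (by norm_num)) (CK.cell A h x 2 j (by norm_num))
    fun _ _ hi _ hl h1 h2 => union12 h hmin hi hl h1 h2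

theorem adj23 (h : Irr U T) (hmin : MnK U T) (x : ℂ) (j : ℕ) :
    (∃ q, Cl (Sq T q) x a 2 j ∧ Cl (Sq T q) x a 3 j) ∨
      (∃ i l, Cl (Sq T i) x a 2 j ∧ Cl (Sq T l) x a 3 j ∧ Wll T x i l) ∨
        ∀ q, Cl (Sq T q) x a 2 j ∨ Cl (Sq T q) x a 3 j :=
  adj_of (CK.cell A h x 2 j (by norm_num)) (CK.cell A h x 3 j (by norm_num))
    fun _ _ hi _ hl h1 h2 => union23 h hmin hi hl h1 h2

theorem adj30 (h : Irr U T) (hmin : MnK U T) (x : ℂ) (j : ℕ) :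
    (∃ q, Cl (Sq T q) x a 3 j ∧ Cl (Sq T q) x a 0 j) ∨
      (∃ i l, Cl (Sq T i) x a 3 j ∧ Cl (Sq T l) x a 0 j ∧ Wll T x i l) ∨
        ∀ q, Cl (Sq T q) x a 3 j ∨ Cl (Sq T q) x a 0 j :=
  adj_of (CK.cell A h x 3 j (by norm_num)) (CK.cell A h x 0 j (by norm_num))
    fun _ _ hi _ hl h1 h2 => union30 A h hmin hi hl h1 h2

end

end Vale.Agent.P032.H374
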