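import Vale.Agent.P032.H374.MdG
import Vale.Agent.P032.H374.Cross
import Vale.Agent.P032.H993.MkE

/-!
# P032: the wild instance of `MdG`

`mkMdG` : frame `Irr U T`, `Mn U T`.
-/

open Set Filter Topology Metric

noncomputable section

namespace Vale.Agent.P032.H374

open Vale.Agent.P032.Six Vale.Agent.P032.H892 Vale.Agent.P032.H913 Vale.Agent.P032.S5.H767 Vale.Agent.P032.H61
  Vale.Agent.P032.H357 Vale.Agent.P032.H357.MK Vale.Agent.P032.H556 Vale.Agent.P032.H515 Vale.Agent.P032.H993.MkW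
open Vale.Agent.P032.H820.K (df ad)
open Vale.Agent.P032.H240.W (MdW)

/-! ### the tables -/

theorem xout_iff {K k d : ℕ} : (bif Nat.beq k 0 then Nat.ble (Nat.mul 3 K) d else
      Nat.ble (Nat.succ (Nat.mul 3 K)) d || (Nat.beq d 0 && (Nat.beq k 1 || Nat.beq k 2)) ||
        (Nat.beq d (Nat.mul 3 K) && (Nat.beq k 2 || Nat.beq k 3))) = true ↔ XOut K k d := by
  have e3 : Nat.mul 3 K = 3 * K := rfl
  unfold XOut
  by_cases hk : k = 0
  · subst hk
    simp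
  · rw [nbeq_zero hk]
    simp only [cond_false, Bool.or_eq_true, Bool.and_eq_true, nbeq, Nat.ble_eq, e3, Nat.succ_le_iff]
    constructor
    · rintro ((h1 | h1) | h1)
      · exact Or.inr (Or.inl ⟨hk, h1⟩)
      · exact Or.inr (Or.inr (Or.inl h1))
      · exact Or.inr (Or.inr (Or.inr h1))
    · rintro (h1 | h1 | h1 | h1)
      · exact absurd h1.1 hk
      · exact Or.inl (Or.inl h1.2)
      · exact Or.inl (Or.inr h1)
      · exact Or.inr h1

theorem xin_iff {K k d : ℕ} : (bif Nat.beq k 0 then Nat.ble (Nat.succ d) (Nat.mul 3 K) else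
      (Nat.ble 1 d && Nat.ble (Nat.succ d) (Nat.mul 3 K)) || (Nat.beq d 0 && Nat.beq k 3) ||
        (Nat.beq d (Nat.mul 3 K) && Nat.beq k 1)) = true ↔ XIn K k d := by
  have e3 : Nat.mul 3 K = 3 * K := rfl
  unfold XIn
  by_cases hk : k = 0
  · subst hk
    simp
  · rw [nbeq_zero hk]
    simp only [cond_false, Bool.or_eq_true, Bool.and_eq_true, nbeq, Nat.ble_eq, e3, Nat.succ_le_iff]
    constructor
    · rintro ((h1 | h1) | h1)
      · exact Or.inr (Or.inl ⟨hk, h1⟩)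
      · exact Or.inr (Or.inr (Or.inl h1))
      · exact Or.inr (Or.inr (Or.inr h1))
    · rintro (h1 | h1 | h1 | h1)
      · exact absurd h1.1 hk
      · exact Or.inl (Or.inl h1.2)
      · exact Or.inl (Or.inr h1)
      · exact Or.inr h1

theorem xpc_iff {K e D : ℕ} : ((Nat.ble (Nat.succ D) (Nat.mul 3 K) && Nat.beq e 1) ||
      (Nat.ble (Nat.succ (Nat.mul 3 K)) D && Nat.beq e 0)) = true ↔ (e = 1 ∧ D < 3 * K) ∨ (e = 0 ∧ 3 * K < D) := by
  have e3 : Nat.mul 3 K = 3 * K := rfl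
  simp only [Bool.or_eq_true, Bool.and_eq_true, nbeq, Nat.ble_eq, e3, Nat.succ_le_iff]
  exact or_congr and_comm and_comm

theorem xp_iff {K e D k d : ℕ} (he : e < 2) (h0 : D ≠ 3 * K) : xp K e D k d = true ↔
    (((e = 1 ∧ D < 3 * K) ∨ (e = 0 ∧ 3 * K < D)) ∧ XOut K k d) ∨
      (((e = 1 ∧ 3 * K < D) ∨ (e = 0 ∧ D < 3 * K)) ∧ XIn K k d) := by
  unfold xp
  by_cases hc : (e = 1 ∧ D < 3 * K) ∨ (e = 0 ∧ 3 * K < D)
  · rw [xpc_iff.2 hc, cond_true, xout_iff]
    constructor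
    · exact fun h3 => Or.inl ⟨hc, h3⟩
    · rintro (h3 | ⟨h3, -⟩)
      · exact h3.2
      · exfalso; omega
  · have h2 : ((Nat.ble (Nat.succ D) (Nat.mul 3 K) && Nat.beq e 1) ||
        (Nat.ble (Nat.succ (Nat.mul 3 K)) D && Nat.beq e 0)) = false := by
      rw [← Bool.not_eq_true]; exact fun h3 => hc (xpc_iff.1 h3)
    rw [h2, cond_false, xin_iff]
    constructor
    · exact fun h3 => Or.inr ⟨by omega, h3⟩
    · rintro (⟨h3, -⟩ | h3)
      · exact absurd h3 hc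
      · exact h3.2

theorem xq_zero {K e k d : ℕ} : xq K e 0 k d = true ↔ XAw K (if e = 1 then 3 * K else 0) k d := by
  have e3 : Nat.mul 3 K = 3 * K := rfl
  unfold xq XAw
  rw [show Nat.beq 0 0 = true from rfl, cond_true]
  by_cases hk : k = 0
  · subst hk
    simp
  · rw [nbeq_zero hk, cond_false]
    by_cases he : e = 1
    · subst he
      simp only [show Nat.beq 1 1 = true from rfl, cond_true, if_true, Bool.or_eq_true, nbeq, Nat.ble_eq, e3,
        Nat.succ_le_iff]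
      tauto
    · have : Nat.beq e 1 = false := by rw [← Bool.not_eq_true, nbeq]; exact he
      simp only [this, cond_false, if_neg he, Bool.or_eq_true, nbeq, Nat.ble_eq, e3, Nat.succ_le_iff]
      tauto

theorem xq_one {K e k d : ℕ} : xq K e 1 k d = true ↔ XTw K (if e = 1 then 0 else 3 * K) k d := by
  have e3 : Nat.mul 3 K = 3 * K := rfl
  unfold xq XTw
  rw [show Nat.beq 1 0 = false from rfl, cond_false]
  by_cases hk : k = 0
  · subst hk
    simp
  · rw [nbeq_zero hk, cond_false]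
    have h1 : (1 ≤ d) ↔ 0 < d := Iff.rfl
    by_cases he : e = 1
    · subst he
      simp only [show Nat.beq 1 1 = true from rfl, cond_true, if_true, Bool.or_eq_true, Bool.and_eq_true, nbeq,
        Nat.ble_eq, e3, Nat.succ_le_iff]
      tauto
    · have : Nat.beq e 1 = false := by rw [← Bool.not_eq_true, nbeq]; exact he
      simp only [this, cond_false, if_neg he, Bool.or_eq_true, Bool.and_eq_true, nbeq, Nat.ble_eq, e3,
        Nat.succ_le_iff]
      tauto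

/-! ### the instance -/

section
variable {U : Fin 6 → Set ℂ} {T : ℂ → Set (Fin 6)} {K : ℕ} {a : ℕ → ℝ} {Y : ℕ → ℂ} {NP : ℕ} {nb : ℕ → ℕ → ℕ}

/-- the X-rule by numbers of ticks -/
theorem xr_of (h : Irr U T) (A : Tick K a) (hY : Tab K a NP nb Y) {x s r k j k' j' e m : ℕ} {p q : Fin 6}
    (hx : x < NP) (hs : s < 6 * K) (hr : r < 6 * K) (hj : j < 6 * K) (hj' : j' < 6 * K) (he : e < 2) (hm : m < 2)
    (hn : nb x s < NP) (hn' : nb x r < NP) (hsr : s ≠ r) (hsr' : s ≠ ad K r (3 * K))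
    (hxp : xp K e (df K s r) k (df K j s) = true) (hxq : xq K e m k' (df K j' r) = true)
    (hc : Cl (U p) (Y (nb x s)) a k j) (hc' : Cl (U q) (Y (nb x r)) a k' j') :
    ∃ c, c ≠ p ∧ c ≠ q ∧ Cl (Sq T c) (Y x) a (xz e m) (xt K e r) := by
  have hK := A.pos
  have hD := df_cases hs hr
  have hDl := df_lt hs hr
  have hD0 : 0 < df K s r := by omega
  have hD2 : df K s r ≠ 3 * K := by
    intro h1
    apply hsr'
    rw [ad_eq]
    rcases hD with ⟨h2, h3⟩ | ⟨h2, h3⟩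
    · rw [Nat.mod_eq_of_lt (by omega)]; omega
    · rw [show r + 3 * K = s + 6 * K by omega, Nat.add_mod_right, Nat.mod_eq_of_lt hs]
  -- the points
  have hdir : dir (a (r + df K s r)) = dir (a s) := by
    rcases hD with ⟨h2, h3⟩ | ⟨h2, h3⟩
    · rw [h3, show r + (s - r) = s by omega]
    · rw [h3, show r + (s + 6 * K - r) = s + 6 * K by omega, CK.dir_full A]
  have hy : Y (nb x s) = Y x + dir (a (r + df K s r)) := by rw [hdir]; exact hY x hx s hs hn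
  have hy' : Y (nb x r) = Y x + dir (a r) := hY x hx r hr hn'
  have hcl : Cl (U p) (Y (nb x s)) a k (r + df K s r + df K j s) := by
    have h1 := (cl_df A (S := U p) (x := Y (nb x s)) (k := k) hj hs).2 hc
    rcases hD with ⟨h2, h3⟩ | ⟨h2, h3⟩
    · rw [h3, show r + (s - r) = s by omega]; exact h1
    · rw [h3, show r + (s + 6 * K - r) + df K j s = s + df K j s + 6 * K by omega, CK.cl_full A]; exact h1
  have hcl' : Cl (U q) (Y (nb x r)) a k' (r + df K j' r) := (cl_df A hj' hr).2 hc'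
  have hdl := df_lt hj hs
  have hdl' := df_lt hj' hr
  have hxp := (xp_iff he hD2).1 hxp
  interval_cases e
  · -- the ray `r + 3 K`
    have hp : (3 * K < df K s r ∧ XOut K k (df K j s)) ∨ (df K s r < 3 * K ∧ XIn K k (df K j s)) := by
      rcases hxp with ⟨h1, h2⟩ | ⟨h1, h2⟩
      · exact Or.inl ⟨by omega, h2⟩
      · exact Or.inr ⟨by omega, h2⟩
    interval_cases m
    · have h1 := xq_zero.1 hxq
      rw [if_neg (by norm_num)] at h1
      obtain ⟨c, h2, h3, h4⟩ := xrule_three A h hD0 hDl hy hy' hdl hdl' hp hcl h1 hcl'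
      exact ⟨c, h2, h3, (CK.cl_mod A).2 h4⟩
    · have h1 := xq_one.1 hxq
      rw [if_neg (by norm_num)] at h1
      obtain ⟨c, h2, h3, h4⟩ := xrule_two' A h hD0 hDl hy hy' hdl hp hcl h1 hcl'
      exact ⟨c, h2, h3, (CK.cl_mod A).2 h4⟩
  · have hp : (df K s r < 3 * K ∧ XOut K k (df K j s)) ∨ (3 * K < df K s r ∧ XIn K k (df K j s)) := by
      rcases hxp with ⟨h1, h2⟩ | ⟨h1, h2⟩
      · exact Or.inl ⟨by omega, h2⟩
      · exact Or.inr ⟨by omega, h2⟩
    interval_cases m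
    · have h1 := xq_zero.1 hxq
      rw [if_pos rfl] at h1
      exact xrule_one A h hD0 hDl hy hy' hdl hdl' hp hcl h1 hcl'
    · have h1 := xq_one.1 hxq
      rw [if_pos rfl] at h1
      exact xrule_two A h hD0 hDl hy hy' hdl hp hcl h1 hcl'

/-- walls by numbers of colours -/
theorem wg_num {σ : Equiv.Perm (Fin 6)} {x : ℂ} {Oc : Fin 6 → Prop} {S : Finset ℕ} {i l : ℕ} (hi6 : i < 6)
    (hl6 : l < 6) (hi : i ∈ S) (hl : l ∉ S)
    (hw : ∀ B : Set (Fin 6), co σ i ∈ B → co σ l ∉ B → WG T x B Oc) :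
    (∃ i' < 6, ∃ l' < 6, i' ∈ S ∧ l' ∉ S ∧ Oc (co σ i') ∧ Oc (co σ l') ∧ Wll T x (co σ i') (co σ l')) ∨
      ∀ q < 6, Oc (co σ q) := by
  have h1 := hw {c | no σ c ∈ S} (by show no σ (co σ i) ∈ S; rw [no_co σ hi6]; exact hi)
    (by show ¬ no σ (co σ l) ∈ S; rw [no_co σ hl6]; exact hl)
  rcases h1 with ⟨m, hm, n, hn, h2, h3, h4⟩ | h1
  · refine Or.inl ⟨no σ m, no_lt σ m, no σ n, no_lt σ n, hm, hn, ?_, ?_, ?_⟩
    · rw [co_no]; exact h2
    · rw [co_no]; exact h3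
    · rw [co_no, co_no]; exact h4
  · exact Or.inr fun q _ => h1 _

theorem mnk_of_mn (hm : Mn U T) : MnK U T := hm

end

/-- **the instance** -/
theorem mkMdG {U : Fin 6 → Set ℂ} {T : ℂ → Set (Fin 6)} (h : Irr U T) (hm : Mn U T) {K : ℕ} {a : ℕ → ℝ}
    (A : Tick K a) (σ : Equiv.Perm (Fin 6)) {NP NW : ℕ} {nb : ℕ → ℕ → ℕ} (hK : 6 * K ≤ 256) (hNP : NP ≤ 4096)
    (hNW : NW ≤ NP) (Y : ℕ → ℂ) (hY : Tab K a NP nb Y) {W : ℕ → Fin NW → ℕ → ℕ → ℕ → Set (Fin 6)}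
    {w : ℕ → Fin NW → ℕ → ℕ → ℕ → Fin 6} (D : ∀ r, Sw U T K a (fun j : Fin NW => Y j.val) (W r) (w r))
    {J : ℕ → ℕ → ℕ → ℕ} (hJ : JC U T K a σ NP nb Y J) {B : ℕ → ℕ → ℕ → ℕ → Prop} (hB : BitE T σ Y B) :
    MdG (mkMdW h A σ hK hNP hNW Y hY D hJ B) where
  xr := fun {x s r k j k' j' e m p q} hx hs hr _ hj _ hj' he hm2 _ _ hn hn' hsr hsr' hxp hxq hp hq => by
    obtain ⟨c, h1, h2, h3⟩ := xr_of h A hY hx hs hr hj hj' he hm2 hn hn' hsr hsr' hxp hxq hp hq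
    obtain ⟨c, hc, rfl⟩ := co_surj σ c
    exact ⟨c, hc, fun e => h1 (by rw [e]), fun e => h2 (by rw [e]), h3⟩
  wc := fun {k x j i l} S hk _ _ hi6 hl6 hi hl h1 h2 => by
    have h3 := wg_num (T := T) (σ := σ) (x := Y x) (Oc := fun c => Cl (Sq T c) (Y x) a k j) hi6 hl6 hi hl
      fun B hiB hlB => cell_wall (by omega) h (mnk_of_mn hm) hiB hlB h1 h2
    refine h3.imp ?_ id
    rintro ⟨i', h4, l', h5, h6, h7, h8, h9, h10⟩
    exact ⟨i', h4, l', h5, h6, h7, h8, h9, (hB.w x i' l').2 h10⟩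
  wu := fun {k x j i l} S hk _ hj hi6 hl6 hi hl h1 h2 => by
    have key : ∀ Oc : Fin 6 → Prop, (∀ q : ℕ, Oc (co σ q) ↔
        (Cl (Sq T (co σ q)) (Y x) a k j ∨ Cl (Sq T (co σ q)) (Y x) a (nk k) (nj K k j))) →
        (∀ B : Set (Fin 6), co σ i ∈ B → co σ l ∉ B → Oc (co σ i) → Oc (co σ l) → WG T (Y x) B Oc) →
        (∃ i' < 6, ∃ l' < 6, i' ∈ S ∧ l' ∉ S ∧
          (Cl (Sq T (co σ i')) (Y x) a k j ∨ Cl (Sq T (co σ i')) (Y x) a (nk k) (nj K k j)) ∧
          (Cl (Sq T (co σ l')) (Y x) a k j ∨ Cl (Sq T (co σ l')) (Y x) a (nk k) (nj K k j)) ∧ B x i' 5 l') ∨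
        ∀ q < 6, Cl (Sq T (co σ q)) (Y x) a k j ∨ Cl (Sq T (co σ q)) (Y x) a (nk k) (nj K k j) := by
      intro Oc hO hw
      have h3 := wg_num (T := T) (σ := σ) (x := Y x) (Oc := Oc) hi6 hl6 hi hl
        fun B hiB hlB => hw B hiB hlB ((hO i).2 h1) ((hO l).2 h2)
      refine h3.imp ?_ fun h4 q hq => (hO q).1 (h4 q hq)
      rintro ⟨i', h4, l', h5, h6, h7, h8, h9, h10⟩
      exact ⟨i', h4, l', h5, h6, h7, (hO i').1 h8, (hO l').1 h9, (hB.w x i' l').2 h10⟩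
    interval_cases k
    · refine key (fun c => Cl (Sq T c) (Y x) a 0 j ∨ Cl (Sq T c) (Y x) a 1 (j + 1)) (fun q => ?_)
        fun B hiB hlB h3 h4 => union01 A h (mnk_of_mn hm) hiB hlB h3 h4
      show _ ↔ (_ ∨ Cl (Sq T (co σ q)) (Y x) a 1 ((j + 1) % (6 * K)))
      rw [CK.cl_mod A]
    · exact key (fun c => Cl (Sq T c) (Y x) a 1 j ∨ Cl (Sq T c) (Y x) a 2 j) (fun q => Iff.rfl)
        fun B hiB hlB h3 h4 => union12 h (mnk_of_mn hm) hiB hlB h3 h4
    · exact key (fun c => Cl (Sq T c) (Y x) a 2 j ∨ Cl (Sq T c) (Y x) a 3 j) (fun q => Iff.rfl)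
        fun B hiB hlB h3 h4 => union23 h (mnk_of_mn hm) hiB hlB h3 h4
    · exact key (fun c => Cl (Sq T c) (Y x) a 3 j ∨ Cl (Sq T c) (Y x) a 0 j) (fun q => Iff.rfl)
        fun B hiB hlB h3 h4 => union30 A h (mnk_of_mn hm) hiB hlB h3 h4

end Vale.Agent.P032.H374
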