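import Vale.Agent.P032.H61.GenSt
import Vale.Agent.P032.H357.CiCo

/-!
# P032: the crossing rule (139's rule (ii)), sound at ties, frame `Irr U T` only

`w` a point with `q ∈ Pal U w`, `y` a point, `s < t` two directions.

* `arc_solid`, `arc_solid'` : if `q ∈ Pal` on the open arc of `S(y)` and the ends of the arc are strictly near / far from `w`,
  then `q ∉ Pal U w`,
* `exists_rep` : a representative `w' ∈ U q` near `w`, off the unit circles about finitely many points, with the same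
  strict signs,
* `cross_open` : if the signs of `w'` at the two ends are different, then on a nonempty open set of directions of the
  arc `q` is not in the palette,
* `cross_in`, `cross_out`, `cross_pure` : so some pure colour `r ≠ q` accumulates from inside, some from outside (wild),
* `exists_Ino_open`, `cross_ino` : the same for the letters `Ino` (tame), at one direction for a finite family of
  circles at the same time.
-/

open Set Filter Topology Metric

noncomputable section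

namespace Vale.Agent.P032.H374

open Vale.Agent.P032.Six Vale.Agent.P032.Words Vale.Agent.P032.H892 Vale.Agent.P032.H913 Vale.Agent.P032.S5.H767

variable {U : Fin 6 → Set ℂ} {T : ℂ → Set (Fin 6)} {y w : ℂ} {s t : ℝ} {q : Fin 6}

/-- one end is near, the other is far -/
def Cross (w y : ℂ) (s t : ℝ) : Prop :=
  (dist w (pt y s) < 1 ∧ 1 < dist w (pt y t)) ∨ (1 < dist w (pt y s) ∧ dist w (pt y t) < 1)

/-- **a solid open arc which is crossed** -/
theorem arc_solid (h : Irr U T) (hst : s < t) (hc : Cross w y s t) (hq : ∀ u ∈ Ioo s t, q ∈ Pal U (pt y u)) :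
    q ∉ Pal U w := by
  have hQ : IsPreconnected (pt y '' Icc s t) := isPreconnected_Icc.image _ (continuous_pt y).continuousOn
  have hQF : pt y '' Icc s t ⊆ closure (U q) := by
    rintro _ ⟨u, hu, rfl⟩
    have h1 : u ∈ closure (Ioo s t) := by rw [closure_Ioo hst.ne]; exact hu
    have h2 : MapsTo (pt y) (Ioo s t) (closure (U q)) := fun v hv => hq v hv
    have h3 := h2.closure (continuous_pt y) h1
    rwa [closure_closure] at h3
  have m1 : pt y s ∈ pt y '' Icc s t := ⟨s, left_mem_Icc.2 hst.le, rfl⟩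
  have m2 : pt y t ∈ pt y '' Icc s t := ⟨t, right_mem_Icc.2 hst.le, rfl⟩
  rcases hc with ⟨h1, h2⟩ | ⟨h1, h2⟩
  · exact h.mx.wlemma hQ hQF m1 m2 (by rw [dist_comm]; exact h1) (by rw [dist_comm]; exact h2)
  · exact h.mx.wlemma hQ hQF m2 m1 (by rw [dist_comm]; exact h2) (by rw [dist_comm]; exact h1)

/-- **representatives** -/
theorem exists_rep (h : Irr U T) (hq : q ∈ Pal U w) {P : ℂ → Prop} (hP : ∀ᶠ v in 𝓝 w, P v) (F : Set ℂ)
    (hF : F.Finite) : ∃ w' ∈ U q, P w' ∧ ∀ p ∈ F, dist w' p ≠ 1 ∧ (dist w p < 1 → dist w' p < 1) ∧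
      (1 < dist w p → 1 < dist w' p) := by
  classical
  -- the strict signs
  have h1 : ∀ᶠ v in 𝓝 w, ∀ p ∈ F, (dist w p < 1 → dist v p < 1) ∧ (1 < dist w p → 1 < dist v p) := by
    rw [eventually_all_finite hF]
    intro p _
    have hco : Continuous fun v : ℂ => dist v p := by fun_prop
    rcases lt_trichotomy (dist w p) 1 with h2 | h2 | h2
    · filter_upwards [hco.continuousAt.eventually_lt_const h2] with v hv
      exact ⟨fun _ => hv, fun h3 => absurd h2 (not_lt.2 h3.le)⟩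
    · exact Eventually.of_forall fun v => ⟨fun h3 => absurd h2 h3.ne, fun h3 => absurd h2 h3.ne'⟩
    · filter_upwards [hco.continuousAt.eventually_const_lt h2] with v hv
      exact ⟨fun h3 => absurd h2 (not_lt.2 h3.le), fun _ => hv⟩
  obtain ⟨v, hvU, ⟨hvP, hvs⟩, hvo⟩ : ∃ v ∈ U q, (P v ∧ ∀ p ∈ F, (dist w p < 1 → dist v p < 1) ∧
      (1 < dist w p → 1 < dist v p)) ∧ ∀ᶠ v' in 𝓝 v, v' ∈ U q ∧ P v' ∧ ∀ p ∈ F, (dist w p < 1 → dist v' p < 1) ∧
      (1 < dist w p → 1 < dist v' p) := by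
    obtain ⟨N, hN, hNo, hwN⟩ := _root_.mem_nhds_iff.1 (hP.and h1)
    obtain ⟨v, hvN, hvU⟩ := mem_closure_iff_nhds.1 hq N (hNo.mem_nhds hwN)
    exact ⟨v, hvU, hN hvN, ((h.mx.isOpen q).inter hNo).mem_nhds ⟨hvU, hvN⟩ |> fun h3 => by
      filter_upwards [h3] with v' hv'
      exact ⟨hv'.1, hN hv'.2⟩⟩
  -- off the circles
  have h2 : ∀ p ∈ F, (sphere p 1)ᶜ ∈ residual ℂ := by
    intro p _
    have h3 : IsOpen (sphere p (1 : ℝ))ᶜ := isClosed_sphere.isOpen_compl
    have h4 : Dense (sphere p (1 : ℝ))ᶜ := by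
      rw [← interior_eq_empty_iff_dense_compl]
      exact interior_sphere p one_ne_zero
    exact residual_of_dense_open h3 h4
  have h3 : (⋂ p ∈ F, (sphere p (1 : ℝ))ᶜ) ∈ residual ℂ := (biInter_mem hF).2 h2
  have h4 : Dense (⋂ p ∈ F, (sphere p (1 : ℝ))ᶜ) := dense_of_mem_residual h3
  obtain ⟨N, hN, hNo, hvN⟩ := _root_.mem_nhds_iff.1 hvo
  obtain ⟨w', hw'N, hw'⟩ := h4.exists_mem_open hNo ⟨v, hvN⟩ |> fun ⟨a, ha, hb⟩ => (⟨a, hb, ha⟩ : ∃ a, a ∈ N ∧ _)
  obtain ⟨g1, g2, g3⟩ := hN hw'N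
  refine ⟨w', g1, g2, fun p hp => ⟨fun he => ?_, (g3 p hp).1, (g3 p hp).2⟩⟩
  have h5 := mem_iInter₂.1 hw' p hp
  exact h5 (by rw [mem_sphere]; exact he)

/-- **the crossing** -/
theorem cross_open (h : Irr U T) (hst : s < t) (hw : w ∈ U q) (hc : Cross w y s t) :
    ∃ O, IsOpen O ∧ O.Nonempty ∧ O ⊆ Ioo s t ∧ ∀ u ∈ O, q ∉ Pal U (pt y u) := by
  have hco : ContinuousOn (fun u => dist w (pt y u)) (Icc s t) :=
    (continuous_const.dist (continuous_pt y)).continuousOn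
  obtain ⟨u, hu, he⟩ : ∃ u ∈ Ioo s t, dist w (pt y u) = 1 := by
    rcases hc with ⟨h1, h2⟩ | ⟨h1, h2⟩
    · exact intermediate_value_Ioo hst.le hco ⟨h1, h2⟩
    · exact intermediate_value_Ioo' hst.le hco ⟨h2, h1⟩
  have h1 : q ∉ Pal U (pt y u) := fun hq => h.mx.free q w hw (pt y u) hq he
  have h2 : IsOpen {v | q ∉ Pal U (pt y v)} := (isClosed_closure.preimage (continuous_pt y)).isOpen_compl
  exact ⟨Ioo s t ∩ {v | q ∉ Pal U (pt y v)}, isOpen_Ioo.inter h2, ⟨u, hu, h1⟩, inter_subset_left, fun v hv => hv.2⟩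

/-! ### wild letters -/

/-- pure colours on both sides of a circle -/
theorem exists_io (h : Irr U T) (y : ℂ) (u : ℝ) : ∃ p r, (∃ᶠ x in 𝓝 (pt y u), T x = {p} ∧ dist x y < 1) ∧
    ∃ᶠ x in 𝓝 (pt y u), T x = {r} ∧ 1 < dist x y := by
  obtain ⟨p, hp⟩ := H61.exists_pure h (H61.isOpen_in y) (H61.freq_in (dist_pt y u))
  obtain ⟨r, hr⟩ := H61.exists_pure h (H61.isOpen_out y) (H61.freq_out (dist_pt y u))
  exact ⟨p, r, hp, hr⟩

theorem ne_of_freq (h : Irr U T) {x : ℂ} {p : Fin 6} {P : ℂ → Prop} (hq : q ∉ Pal U x)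
    (hp : ∃ᶠ v in 𝓝 x, T v = {p} ∧ P v) : p ≠ q := by
  rintro rfl
  exact hq (h.sub x (H61.mem_of_freq h hp))

/-- **crossing, wild form**: at a common direction of the open arc a colour `≠ q` inside and one outside -/
theorem cross_pure (h : Irr U T) (hst : s < t) (hw : w ∈ U q) (hc : Cross w y s t) :
    ∃ u ∈ Ioo s t, q ∉ Pal U (pt y u) ∧ ∃ p r, p ≠ q ∧ r ≠ q ∧ (∃ᶠ x in 𝓝 (pt y u), T x = {p} ∧ dist x y < 1) ∧
      ∃ᶠ x in 𝓝 (pt y u), T x = {r} ∧ 1 < dist x y := by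
  obtain ⟨O, -, ⟨u, hu⟩, hO, hq⟩ := cross_open h hst hw hc
  obtain ⟨p, r, hp, hr⟩ := exists_io h y u
  exact ⟨u, hO hu, hq u hu, p, r, ne_of_freq h (hq u hu) hp, ne_of_freq h (hq u hu) hr, hp, hr⟩

/-! ### tame letters -/

/-- letters of finitely many circles at a common direction of an open set -/
theorem exists_Ino_open (h : Irr U T) (hl3 : LF3 U T) {J : Type*} [Finite J] (X : J → ℂ) (off : J → ℝ) {O : Set ℝ}
    (hO : IsOpen O) (hne : O.Nonempty) :
    ∃ τ ∈ O, ∃ P Q : J → Fin 6, ∀ j, H61.Ino U T (X j) (off j + τ) (P j) (Q j) := by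
  have := Fintype.ofFinite J
  obtain ⟨τ₀, hτ₀⟩ := hne
  have h1 : ∀ᶠ τ in 𝓝[≠] τ₀, ∀ j, ¬ Ex3 U T (pt (X j) (off j + τ)) := by
    refine eventually_all.2 fun j => ?_
    have h2 : Tendsto (fun τ : ℝ => off j + τ) (𝓝[≠] τ₀) (𝓝[≠] (off j + τ₀)) := by
      refine tendsto_nhdsWithin_of_tendsto_nhds_of_eventually_within _ ?_ ?_
      · have h5 : Continuous fun τ : ℝ => off j + τ := by fun_prop
        exact (h5.tendsto τ₀).mono_left nhdsWithin_le_nhds
      · filter_upwards [self_mem_nhdsWithin] with τ hτ he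
        exact hτ (by simpa using he)
    exact h2.eventually (lf_circ hl3 (X j) (off j + τ₀))
  have h2 : ∀ᶠ τ in 𝓝[>] τ₀, ∀ j, ¬ Ex3 U T (pt (X j) (off j + τ)) :=
    h1.filter_mono (nhdsWithin_mono _ fun x hx => ne_of_gt hx)
  have h3 : O ∈ 𝓝[>] τ₀ := mem_nhdsWithin_of_mem_nhds (hO.mem_nhds hτ₀)
  obtain ⟨b, hb, hs⟩ := (mem_nhdsGT_iff_exists_Ioo_subset (a := τ₀)).1 (inter_mem h3 h2)
  obtain ⟨τ, hτ, hloc⟩ := H61.loc_open h X off (isOpen_Ioo (a := τ₀) (b := b)) (nonempty_Ioo.2 hb)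
  have h4 := hs hτ
  choose P hP using fun j => H61.exists_pure h (H61.isOpen_in (X j)) (H61.freq_in (dist_pt (X j) (off j + τ)))
  choose Q hQ using fun j => H61.exists_pure h (H61.isOpen_out (X j)) (H61.freq_out (dist_pt (X j) (off j + τ)))
  exact ⟨τ, h4.1, P, Q, fun j => ⟨hloc j, h4.2 j, hP j, hQ j⟩⟩

/-- **crossing, tame form**: at a common direction `τ` of the open arc all circles of a finite family have letters,
and the letters of `S(y)` are not `q` -/
theorem cross_ino (h : Irr U T) (hl3 : LF3 U T) {J : Type*} [Finite J] (X : J → ℂ) (off : J → ℝ) (hst : s < t)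
    (hw : w ∈ U q) (hc : Cross w y s t) :
    ∃ τ ∈ Ioo s t, (∃ P Q : J → Fin 6, ∀ j, H61.Ino U T (X j) (off j + τ) (P j) (Q j)) ∧
      ∃ p r, p ≠ q ∧ r ≠ q ∧ H61.Ino U T y τ p r := by
  obtain ⟨O, hO, hne, hOs, hq⟩ := cross_open h hst hw hc
  obtain ⟨τ, hτ, P, Q, hPQ⟩ := exists_Ino_open h hl3 (fun j : Option J => j.elim y X) (fun j => j.elim 0 off) hO hne
  have h1 := hPQ none
  simp only [Option.elim_none, zero_add] at h1
  refine ⟨τ, hOs hτ, ⟨fun j => P (some j), fun j => Q (some j), fun j => hPQ (some j)⟩, P none, Q none, ?_, ?_, h1⟩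
  · exact ne_of_freq h (hq τ hτ) h1.inn
  · exact ne_of_freq h (hq τ hτ) h1.out

end Vale.Agent.P032.H374
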