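import Vale.Agent.P032.H374.SgnT
open Set Filter Topology Metric

noncomputable section

namespace Vale.Agent.P032.H374.Sgn

open Vale.Agent.P032.Six Vale.Agent.P032.H892 Vale.Agent.P032.H913 Vale.Agent.P032.S5.H767


/-! ### the identity -/

/-- norm form -/
def nrE (A : ℤ × ℤ) : ℤ := A.1 * A.1 + A.1 * A.2 + A.2 * A.2

/-- `conj A * B = g + h ω`: the number `2 g + h` -/
def pE (A B : ℤ × ℤ) : ℤ := 2 * ((A.1 + A.2) * B.1 + A.2 * B.2) + (A.1 * B.2 - A.2 * B.1)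

/-- the number `h` -/
def hE (A B : ℤ × ℤ) : ℤ := A.1 * B.2 - A.2 * B.1

/-- the 13 integers -/
def lam (A B C D : ℤ × ℤ) : List ℤ :=
  [nrE A + nrE B + nrE C + nrE D - 1, pE A B, hE A B, pE A C, hE A C, pE A D, hE A D, pE B C, hE B C, pE B D, hE B D,
    pE C D, hE C D]

/-- the 84 coefficients -/
def cf84 (A B C D : ℤ × ℤ) : List ℤ := lcL (lam A B C D) cols zer

/-- the coefficients of `-F` -/
def cf84n (A B C D : ℤ × ℤ) : List ℤ := smL (-1) (cf84 A B C D)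

def chkF (f1 f2 f3 : Bool) (A B C D : ℤ × ℤ) : Bool :=
  nn f1 f2 f3 (cf84 A B C D) exs && ps f1 f2 f3 (cf84 A B C D) exs

def chkN (f1 f2 f3 : Bool) (A B C D : ℤ × ℤ) : Bool :=
  nn f1 f2 f3 (cf84n A B C D) exs && ps f1 f2 f3 (cf84n A B C D) exs

theorem zer_dot (m : List ℝ) : ∀ n, dotR (List.replicate n 0) m = 0 := by
  intro n
  induction n generalizing m with
  | zero => cases m <;> simp [dotR]
  | succ n ih =>
    cases m with
    | nil => simp [List.replicate_succ, dotR]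
    | cons a m => simp [List.replicate_succ, dotR, ih]

theorem cols_len : ∀ l ∈ cols, l.length = 84 := by decide

/-- real and imaginary parts -/
def Xr (A : ℤ × ℤ) (κ σ : ℝ) : ℝ := ((A.1 : ℝ) + A.2 / 2) * κ - (A.2 : ℝ) / 2 * σ

def Yr (A : ℤ × ℤ) (κ σ : ℝ) : ℝ := ((A.1 : ℝ) + A.2 / 2) * σ + 3 / 2 * (A.2 : ℝ) * κ

theorem F_eq {x y z e : ℝ} (hH : x + y + z + e = 1) (A B C D : ℤ × ℤ) :
    dotR (cf84 A B C D) (mons x y z e) =
      ((Xr A 1 0 + Xr B ((3 - x ^ 2) / (3 + x ^ 2)) (6 * x / (3 + x ^ 2)) +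
        Xr C ((3 - (x + y) ^ 2) / (3 + (x + y) ^ 2)) (6 * (x + y) / (3 + (x + y) ^ 2)) +
        Xr D ((3 - (x + y + z) ^ 2) / (3 + (x + y + z) ^ 2)) (6 * (x + y + z) / (3 + (x + y + z) ^ 2))) ^ 2 +
      (Yr A 1 0 + Yr B ((3 - x ^ 2) / (3 + x ^ 2)) (6 * x / (3 + x ^ 2)) +
        Yr C ((3 - (x + y) ^ 2) / (3 + (x + y) ^ 2)) (6 * (x + y) / (3 + (x + y) ^ 2)) +
        Yr D ((3 - (x + y + z) ^ 2) / (3 + (x + y + z) ^ 2)) (6 * (x + y + z) / (3 + (x + y + z) ^ 2))) ^ 2 / 3 - 1) *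
      ((3 + x ^ 2) * (3 + (x + y) ^ 2) * (3 + (x + y + z) ^ 2)) := by
  have h0 : dotR zer (mons x y z e) = 0 := zer_dot _ 84
  unfold cf84
  rw [dotR_lcL (mons x y z e) (lam A B C D) cols (z := zer) (n := 84) (by decide) h0 cols_len]
  simp only [lam, cols, lcR, bas0, bas1, bas2, bas3, bas4, bas5, bas6, bas7, bas8, bas9, bas10, bas11, bas12, hH, pE, hE,
    nrE, Xr, Yr]
  push_cast
  generalize ha : x + y = u
  generalize hb : u + z = v
  have d1 : (3 : ℝ) + x ^ 2 ≠ 0 := by positivity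
  have d2 : (3 : ℝ) + u ^ 2 ≠ 0 := by positivity
  have d3 : (3 : ℝ) + v ^ 2 ≠ 0 := by positivity
  field_simp
  ring

/-! ### the parameter -/

/-- the parameter of an angle -/
def sp (θ : ℝ) : ℝ := √3 * Real.tan (θ * (Real.pi / 6))

theorem sp_zero : sp 0 = 0 := by unfold sp; simp

theorem sp_sq (θ : ℝ) : sp θ ^ 2 = 3 * Real.tan (θ * (Real.pi / 6)) ^ 2 := by
  unfold sp
  rw [mul_pow, Real.sq_sqrt (by norm_num)]

theorem cos_half_pos {θ : ℝ} (h0 : 0 ≤ θ) (h1 : θ < 1) : 0 < Real.cos (θ * (Real.pi / 6)) := by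
  have hpi := Real.pi_pos
  refine Real.cos_pos_of_mem_Ioo ⟨?_, ?_⟩
  · have : 0 ≤ θ * (Real.pi / 6) := by positivity
    linarith
  · nlinarith

theorem cos_sp {θ : ℝ} (h0 : 0 ≤ θ) (h1 : θ < 1) :
    Real.cos (θ * (Real.pi / 3)) = (3 - sp θ ^ 2) / (3 + sp θ ^ 2) := by
  have hc := (cos_half_pos h0 h1).ne'
  have e1 : θ * (Real.pi / 3) = 2 * (θ * (Real.pi / 6)) := by ring
  rw [sp_sq, e1, Real.cos_two_mul, Real.tan_eq_sin_div_cos]
  have hs := Real.sin_sq_add_cos_sq (θ * (Real.pi / 6))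
  generalize Real.cos (θ * (Real.pi / 6)) = c at hc hs ⊢
  generalize Real.sin (θ * (Real.pi / 6)) = s at hs ⊢
  rw [eq_div_iff (by positivity)]
  have h2 : (s / c) ^ 2 * c ^ 2 = s ^ 2 := by rw [← mul_pow, div_mul_cancel₀ _ hc]
  have h3 : (s / c) ^ 2 * c ^ 2 = 1 - c ^ 2 := by rw [h2]; linarith
  linear_combination (6 : ℝ) * h3

theorem sin_sp {θ : ℝ} (h0 : 0 ≤ θ) (h1 : θ < 1) :
    √3 * Real.sin (θ * (Real.pi / 3)) = 6 * sp θ / (3 + sp θ ^ 2) := by
  have hc := (cos_half_pos h0 h1).ne'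
  have e1 : θ * (Real.pi / 3) = 2 * (θ * (Real.pi / 6)) := by ring
  rw [sp_sq, e1, Real.sin_two_mul]
  unfold sp
  rw [Real.tan_eq_sin_div_cos, eq_div_iff (by positivity)]
  have hs := Real.sin_sq_add_cos_sq (θ * (Real.pi / 6))
  generalize Real.cos (θ * (Real.pi / 6)) = c at hc hs ⊢
  generalize Real.sin (θ * (Real.pi / 6)) = s at hs ⊢
  have h2 : s / c * c = s := div_mul_cancel₀ _ hc
  have h3 : s * c * (s / c) ^ 2 + s * c = s / c := by
    have h4 : s * c * (s / c) ^ 2 = s / c * s ^ 2 := by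
      calc s * c * (s / c) ^ 2 = s * (s / c) * (s / c * c) := by ring
        _ = s / c * s ^ 2 := by rw [h2]; ring
    have h5 : s * c = s / c * c ^ 2 := by
      calc s * c = s / c * c * c := by rw [h2]
        _ = s / c * c ^ 2 := by ring
    rw [h4]
    calc s / c * s ^ 2 + s * c = s / c * (s ^ 2 + c ^ 2) := by rw [mul_add, ← h5]
      _ = s / c := by rw [hs, mul_one]
  linear_combination (6 * √3) * h3

theorem sp_lt {θ θ' : ℝ} (h0 : 0 ≤ θ) (h : θ < θ') (h1 : θ' < 1) : sp θ < sp θ' := by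
  have hpi := Real.pi_pos
  unfold sp
  have h3 : 0 < √3 := by positivity
  refine mul_lt_mul_of_pos_left (Real.tan_lt_tan_of_lt_of_lt_pi_div_two ?_ ?_ ?_) h3
  · have : 0 ≤ θ * (Real.pi / 6) := by positivity
    linarith
  · nlinarith
  · exact mul_lt_mul_of_pos_right h (by positivity)

theorem sp_lt_one {θ : ℝ} (h0 : 0 ≤ θ) (h1 : θ < 1) : sp θ < 1 := by
  have hpi := Real.pi_pos
  have h2 : Real.tan (θ * (Real.pi / 6)) < Real.tan (Real.pi / 6) := by
    refine Real.tan_lt_tan_of_lt_of_lt_pi_div_two ?_ ?_ ?_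
    · have : 0 ≤ θ * (Real.pi / 6) := by positivity
      linarith
    · linarith
    · nlinarith
  have h3 : 0 < √3 := by positivity
  unfold sp
  calc √3 * Real.tan (θ * (Real.pi / 6)) < √3 * Real.tan (Real.pi / 6) := mul_lt_mul_of_pos_left h2 h3
    _ = 1 := by
      rw [Real.tan_pi_div_six]
      field_simp

/-! ### vectors -/

/-- Eisenstein integers -/
def eis (A : ℤ × ℤ) : ℂ := (A.1 : ℂ) + A.2 * dir 1

theorem dir_eq (θ : ℝ) : dir θ = ⟨Real.cos (θ * (Real.pi / 3)), Real.sin (θ * (Real.pi / 3))⟩ := by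
  unfold dir
  exact Complex.ext (cis_re _) (cis_im _)

theorem dir_one' : dir 1 = ⟨1 / 2, √3 / 2⟩ := by
  rw [dir_eq]
  apply Complex.ext
  · simp only [one_mul]; exact Real.cos_pi_div_three
  · simp only [one_mul]; exact Real.sin_pi_div_three

theorem re_eis (A : ℤ × ℤ) (θ : ℝ) : (eis A * dir θ).re =
    Xr A (Real.cos (θ * (Real.pi / 3))) (√3 * Real.sin (θ * (Real.pi / 3))) := by
  unfold eis Xr
  rw [dir_one', dir_eq]
  simp only [Complex.mul_re, Complex.add_re, Complex.add_im, Complex.mul_im, Complex.intCast_re, Complex.intCast_im]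
  ring

theorem im_eis (A : ℤ × ℤ) (θ : ℝ) : √3 * (eis A * dir θ).im =
    Yr A (Real.cos (θ * (Real.pi / 3))) (√3 * Real.sin (θ * (Real.pi / 3))) := by
  have h3 : √3 * √3 = 3 := Real.mul_self_sqrt (by norm_num)
  unfold eis Yr
  rw [dir_one', dir_eq]
  simp only [Complex.mul_re, Complex.add_re, Complex.add_im, Complex.mul_im, Complex.intCast_re, Complex.intCast_im]
  linear_combination ((A.2 : ℝ) / 2 * Real.cos (θ * (Real.pi / 3))) * h3

theorem normSq_three (w : ℂ) : ‖w‖ ^ 2 = w.re ^ 2 + (√3 * w.im) ^ 2 / 3 := by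
  rw [Complex.sq_norm, Complex.normSq_apply, mul_pow, Real.sq_sqrt (by norm_num)]
  ring

/-- `true` = smaller, `false` = equal -/
def Ord (f : Bool) (c c' : ℝ) : Prop := (f = true → c < c') ∧ (f = false → c = c')

theorem Ord.le {f : Bool} {c c' : ℝ} (h : Ord f c c') : c ≤ c' := by
  cases f with
  | false => exact (h.2 rfl).le
  | true => exact (h.1 rfl).le

theorem Ord.fl {f : Bool} {c c' : ℝ} (h : Ord f c c') (h0 : 0 ≤ c) (h1 : c' < 1) : Fl f (sp c' - sp c) := by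
  refine ⟨fun hf => ?_, fun hf => ?_⟩
  · have := sp_lt h0 (h.1 hf) h1; linarith
  · rw [h.2 hf, sub_self]

theorem sq_sub_one (A B C D : ℤ × ℤ) {t1 t2 t3 : ℝ} (h1 : 0 ≤ t1) (h2 : t1 ≤ t2) (h3 : t2 ≤ t3) (h4 : t3 < 1) :
    dotR (cf84 A B C D) (mons (sp t1) (sp t2 - sp t1) (sp t3 - sp t2) (1 - sp t3)) =
      (‖eis A * dir 0 + eis B * dir t1 + eis C * dir t2 + eis D * dir t3‖ ^ 2 - 1) *
        ((3 + sp t1 ^ 2) * (3 + sp t2 ^ 2) * (3 + sp t3 ^ 2)) := by
  have e1 : sp t1 + (sp t2 - sp t1) = sp t2 := by ring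
  have e2 : sp t1 + (sp t2 - sp t1) + (sp t3 - sp t2) = sp t3 := by ring
  have hF := F_eq (x := sp t1) (y := sp t2 - sp t1) (z := sp t3 - sp t2) (e := 1 - sp t3) (by ring) A B C D
  rw [e2, e1] at hF
  rw [hF, normSq_three]
  have hre : (eis A * dir 0 + eis B * dir t1 + eis C * dir t2 + eis D * dir t3).re =
      Xr A 1 0 + Xr B ((3 - sp t1 ^ 2) / (3 + sp t1 ^ 2)) (6 * sp t1 / (3 + sp t1 ^ 2)) +
        Xr C ((3 - sp t2 ^ 2) / (3 + sp t2 ^ 2)) (6 * sp t2 / (3 + sp t2 ^ 2)) +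
        Xr D ((3 - sp t3 ^ 2) / (3 + sp t3 ^ 2)) (6 * sp t3 / (3 + sp t3 ^ 2)) := by
    rw [← cos_sp h1 (by linarith), ← sin_sp h1 (by linarith), ← cos_sp (h1.trans h2) (by linarith),
      ← sin_sp (h1.trans h2) (by linarith), ← cos_sp (h1.trans (h2.trans h3)) h4,
      ← sin_sp (h1.trans (h2.trans h3)) h4, Complex.add_re, Complex.add_re, Complex.add_re, re_eis, re_eis, re_eis,
      re_eis, zero_mul, Real.cos_zero, Real.sin_zero, mul_zero]
  have him : √3 * (eis A * dir 0 + eis B * dir t1 + eis C * dir t2 + eis D * dir t3).im =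
      Yr A 1 0 + Yr B ((3 - sp t1 ^ 2) / (3 + sp t1 ^ 2)) (6 * sp t1 / (3 + sp t1 ^ 2)) +
        Yr C ((3 - sp t2 ^ 2) / (3 + sp t2 ^ 2)) (6 * sp t2 / (3 + sp t2 ^ 2)) +
        Yr D ((3 - sp t3 ^ 2) / (3 + sp t3 ^ 2)) (6 * sp t3 / (3 + sp t3 ^ 2)) := by
    rw [← cos_sp h1 (by linarith), ← sin_sp h1 (by linarith), ← cos_sp (h1.trans h2) (by linarith),
      ← sin_sp (h1.trans h2) (by linarith), ← cos_sp (h1.trans (h2.trans h3)) h4,
      ← sin_sp (h1.trans (h2.trans h3)) h4, Complex.add_im, Complex.add_im, Complex.add_im, mul_add, mul_add, mul_add,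
      im_eis, im_eis, im_eis, im_eis, zero_mul, Real.cos_zero, Real.sin_zero, mul_zero]
  rw [hre, him]

section
variable {f1 f2 f3 : Bool} {A B C D : ℤ × ℤ} {c0 c1 c2 c3 : ℝ}

theorem rot_eq (A B C D : ℤ × ℤ) (c0 c1 c2 c3 : ℝ) :
    ‖eis A * dir c0 + eis B * dir c1 + eis C * dir c2 + eis D * dir c3‖ =
      ‖eis A * dir 0 + eis B * dir (c1 - c0) + eis C * dir (c2 - c0) + eis D * dir (c3 - c0)‖ := by
  have key : ∀ c : ℝ, dir c = dir c0 * dir (c - c0) := by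
    intro c
    unfold dir
    rw [← Six.cis_add]; congr 1; ring
  have h0 : dir (0 : ℝ) = 1 := by unfold dir; simp [cis]
  have e : eis A * dir c0 + eis B * dir c1 + eis C * dir c2 + eis D * dir c3 =
      dir c0 * (eis A * dir 0 + eis B * dir (c1 - c0) + eis C * dir (c2 - c0) + eis D * dir (c3 - c0)) := by
    rw [h0, key c1, key c2, key c3]; ring
  rw [e, norm_mul, norm_dir, one_mul]

/-- **constant sign, far** -/
theorem far_of_chk (h1 : Ord f1 c0 c1) (h2 : Ord f2 c1 c2) (h3 : Ord f3 c2 c3) (h4 : c3 < c0 + 1)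
    (hc : chkF f1 f2 f3 A B C D = true) :
    1 < ‖eis A * dir c0 + eis B * dir c1 + eis C * dir c2 + eis D * dir c3‖ := by
  unfold chkF at hc
  rw [Bool.and_eq_true] at hc
  have g1 := h1.le
  have g2 := h2.le
  have g3 := h3.le
  have k1 : Ord f1 0 (c1 - c0) := ⟨fun hf => by have := h1.1 hf; linarith, fun hf => by have := h1.2 hf; linarith⟩
  have k2 : Ord f2 (c1 - c0) (c2 - c0) := ⟨fun hf => by have := h2.1 hf; linarith, fun hf => by rw [h2.2 hf]⟩
  have k3 : Ord f3 (c2 - c0) (c3 - c0) := ⟨fun hf => by have := h3.1 hf; linarith, fun hf => by rw [h3.2 hf]⟩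
  have l1 := k1.fl le_rfl (by linarith)
  have l2 := k2.fl (by linarith) (by linarith)
  have l3 := k3.fl (by linarith) (by linarith)
  rw [sp_zero, sub_zero] at l1
  have le : 0 < 1 - sp (c3 - c0) := by have := sp_lt_one (θ := c3 - c0) (by linarith) (by linarith); linarith
  have hp := dot_pos l1 l2 l3 le hc.1 hc.2
  have hq := sq_sub_one A B C D (t1 := c1 - c0) (t2 := c2 - c0) (t3 := c3 - c0) (by linarith) (by linarith)
    (by linarith) (by linarith)
  unfold mons at hq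
  rw [hq] at hp
  have hd : 0 < (3 + sp (c1 - c0) ^ 2) * (3 + sp (c2 - c0) ^ 2) * (3 + sp (c3 - c0) ^ 2) := by positivity
  have h5 := (mul_pos_iff_of_pos_right hd).1 hp
  rw [rot_eq]
  nlinarith [norm_nonneg (eis A * dir 0 + eis B * dir (c1 - c0) + eis C * dir (c2 - c0) + eis D * dir (c3 - c0))]

/-- **constant sign, near** -/
theorem near_of_chk (h1 : Ord f1 c0 c1) (h2 : Ord f2 c1 c2) (h3 : Ord f3 c2 c3) (h4 : c3 < c0 + 1)
    (hc : chkN f1 f2 f3 A B C D = true) :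
    ‖eis A * dir c0 + eis B * dir c1 + eis C * dir c2 + eis D * dir c3‖ < 1 := by
  unfold chkN at hc
  rw [Bool.and_eq_true] at hc
  have g1 := h1.le
  have g2 := h2.le
  have g3 := h3.le
  have k1 : Ord f1 0 (c1 - c0) := ⟨fun hf => by have := h1.1 hf; linarith, fun hf => by have := h1.2 hf; linarith⟩
  have k2 : Ord f2 (c1 - c0) (c2 - c0) := ⟨fun hf => by have := h2.1 hf; linarith, fun hf => by rw [h2.2 hf]⟩
  have k3 : Ord f3 (c2 - c0) (c3 - c0) := ⟨fun hf => by have := h3.1 hf; linarith, fun hf => by rw [h3.2 hf]⟩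
  have l1 := k1.fl le_rfl (by linarith)
  have l2 := k2.fl (by linarith) (by linarith)
  have l3 := k3.fl (by linarith) (by linarith)
  rw [sp_zero, sub_zero] at l1
  have le : 0 < 1 - sp (c3 - c0) := by have := sp_lt_one (θ := c3 - c0) (by linarith) (by linarith); linarith
  have hp := dot_pos l1 l2 l3 le hc.1 hc.2
  have hq := sq_sub_one A B C D (t1 := c1 - c0) (t2 := c2 - c0) (t3 := c3 - c0) (by linarith) (by linarith)
    (by linarith) (by linarith)
  unfold mons at hq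
  unfold cf84n at hp
  rw [dotR_smL, hq] at hp
  have hd : 0 < (3 + sp (c1 - c0) ^ 2) * (3 + sp (c2 - c0) ^ 2) * (3 + sp (c3 - c0) ^ 2) := by positivity
  rw [← mul_assoc] at hp
  have h5 := (mul_pos_iff_of_pos_right hd).1 hp
  push_cast at h5
  rw [rot_eq]
  nlinarith [norm_nonneg (eis A * dir 0 + eis B * dir (c1 - c0) + eis C * dir (c2 - c0) + eis D * dir (c3 - c0))]

end

end Vale.Agent.P032.H374.Sgn
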