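import Vale.Agent.P032.H374.Sgn
open Set Filter Topology Metric

noncomputable section

namespace Vale.Agent.P032.H374.Sgn

open Vale.Agent.P032.Six Vale.Agent.P032.H892 Vale.Agent.P032.H913 Vale.Agent.P032.S5.H767

/-! ### coordinates in `K` classes -/

/-- the vector with the coordinates `v` -/
def vec (K : ℕ) (a : ℕ → ℝ) (v : ℕ → ℤ) : ℂ := ∑ r ∈ Finset.range K, eis (v (2 * r), v (2 * r + 1)) * dir (a r)

/-- the class `r` occurs -/
def nz (v : ℕ → ℤ) (r : ℕ) : Bool := !(decide (v (2 * r) = 0) && decide (v (2 * r + 1) = 0))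

/-- coefficient, if the class is new -/
def sel (v : ℕ → ℤ) (i : ℕ) (f : Bool) : ℤ × ℤ := bif f then (v (2 * i), v (2 * i + 1)) else (0, 0)

/-- the four classes contain all classes which occur -/
def four (K : ℕ) (v : ℕ → ℤ) (i0 i1 i2 i3 : ℕ) : Bool :=
  Nat.ble i0 i1 && Nat.ble i1 i2 && Nat.ble i2 i3 && Nat.ble (Nat.succ i3) K &&
    H357.MK.al (fun r => !(nz v r) || Nat.beq r i0 || Nat.beq r i1 || Nat.beq r i2 || Nat.beq r i3) K

theorem eis_zero : eis (0, 0) = 0 := by simp [eis]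

theorem vec_four {K : ℕ} {a : ℕ → ℝ} {v : ℕ → ℤ} {i0 i1 i2 i3 : ℕ} (h : four K v i0 i1 i2 i3 = true) :
    vec K a v = eis (sel v i0 true) * dir (a i0) + eis (sel v i1 (Nat.ble (Nat.succ i0) i1)) * dir (a i1) +
      eis (sel v i2 (Nat.ble (Nat.succ i1) i2)) * dir (a i2) +
      eis (sel v i3 (Nat.ble (Nat.succ i2) i3)) * dir (a i3) := by
  unfold four at h
  simp only [Bool.and_eq_true, Nat.ble_eq] at h
  obtain ⟨⟨⟨⟨h1, h2⟩, h3⟩, h4⟩, h5⟩ := h
  set g : ℕ → ℂ := fun r => eis (v (2 * r), v (2 * r + 1)) * dir (a r) with hg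
  have key : ∀ r ∈ Finset.range K, g r = (if r = i0 then g r else 0) + (if r = i1 then (if i0 < i1 then g r else 0) else 0) +
      (if r = i2 then (if i1 < i2 then g r else 0) else 0) + (if r = i3 then (if i2 < i3 then g r else 0) else 0) := by
    intro r hr
    rw [Finset.mem_range] at hr
    by_cases hz : nz v r = true
    · have h6 := H357.MK.al_spec h5 r hr
      rw [hz] at h6
      simp only [Bool.not_true, Bool.false_or, Bool.or_eq_true, Nat.beq_eq] at h6
      have h7 : r = i0 ∨ r = i1 ∨ r = i2 ∨ r = i3 := by tauto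
      by_cases e0 : r = i0
      · have n1 : ¬ (r = i1 ∧ i0 < i1) := by omega
        have n2 : ¬ (r = i2 ∧ i1 < i2) := by omega
        have n3 : ¬ (r = i3 ∧ i2 < i3) := by omega
        rw [if_pos e0, ← ite_and, ← ite_and, ← ite_and, if_neg n1, if_neg n2, if_neg n3]; ring
      · by_cases e1 : r = i1
        · have n2 : ¬ (r = i2 ∧ i1 < i2) := by omega
          have n3 : ¬ (r = i3 ∧ i2 < i3) := by omega
          have n1 : r = i1 ∧ i0 < i1 := by omega
          rw [if_neg e0, ← ite_and, ← ite_and, ← ite_and, if_pos n1, if_neg n2, if_neg n3]; ring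
        · by_cases e2 : r = i2
          · have n3 : ¬ (r = i3 ∧ i2 < i3) := by omega
            have n2 : r = i2 ∧ i1 < i2 := by omega
            rw [if_neg e0, if_neg e1, ← ite_and, ← ite_and, if_pos n2, if_neg n3]; ring
          · have e3 : r = i3 := by tauto
            have n3 : r = i3 ∧ i2 < i3 := by omega
            rw [if_neg e0, if_neg e1, if_neg e2, ← ite_and, if_pos n3]; ring
    · have hv : v (2 * r) = 0 ∧ v (2 * r + 1) = 0 := by
        unfold nz at hz
        rw [Bool.not_eq_true, Bool.not_eq_false', Bool.and_eq_true, decide_eq_true_eq, decide_eq_true_eq] at hz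
        exact hz
      have hgr : g r = 0 := by rw [hg]; simp only [hv.1, hv.2, eis_zero, zero_mul]
      rw [hgr]; simp
  unfold vec
  rw [Finset.sum_congr rfl key, Finset.sum_add_distrib, Finset.sum_add_distrib, Finset.sum_add_distrib]
  have m0 : i0 ∈ Finset.range K := Finset.mem_range.2 (by omega)
  have m1 : i1 ∈ Finset.range K := Finset.mem_range.2 (by omega)
  have m2 : i2 ∈ Finset.range K := Finset.mem_range.2 (by omega)
  have m3 : i3 ∈ Finset.range K := Finset.mem_range.2 (by omega)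
  rw [Finset.sum_ite_eq' _ _ g, if_pos m0,
    Finset.sum_ite_eq' _ _ (fun r => if i0 < i1 then g r else 0), if_pos m1,
    Finset.sum_ite_eq' _ _ (fun r => if i1 < i2 then g r else 0), if_pos m2,
    Finset.sum_ite_eq' _ _ (fun r => if i2 < i3 then g r else 0), if_pos m3]
  have hs : ∀ i j : ℕ, (if i < j then g j else 0) = eis (sel v j (Nat.ble (Nat.succ i) j)) * dir (a j) := by
    intro i j
    by_cases hij : i < j
    · have : Nat.ble (Nat.succ i) j = true := by rw [Nat.ble_eq]; exact hij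
      rw [if_pos hij, this]; rfl
    · have : Nat.ble (Nat.succ i) j = false := by rw [← Bool.not_eq_true, Nat.ble_eq]; omega
      rw [if_neg hij, this]
      simp only [sel, cond_false, eis_zero, zero_mul]
  rw [hs, hs, hs]
  rfl

/-- the next class which occurs -/
def nxt (v : ℕ → ℤ) (d : ℕ) : ℕ → ℕ → ℕ
  | 0, _ => d
  | n + 1, r => bif nz v r then r else nxt v d n (Nat.succ r)

def fix0 (K : ℕ) (v : ℕ → ℤ) : ℕ := nxt v 0 K 0

def fix1 (K : ℕ) (v : ℕ → ℤ) (i : ℕ) : ℕ := nxt v i (Nat.sub K (Nat.succ i)) (Nat.succ i)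

/-- constant sign, far -/
def farI (K : ℕ) (v : ℕ → ℤ) (i0 i1 i2 i3 : ℕ) : Bool :=
  four K v i0 i1 i2 i3 && chkF (Nat.ble (Nat.succ i0) i1) (Nat.ble (Nat.succ i1) i2) (Nat.ble (Nat.succ i2) i3)
    (sel v i0 true) (sel v i1 (Nat.ble (Nat.succ i0) i1)) (sel v i2 (Nat.ble (Nat.succ i1) i2))
    (sel v i3 (Nat.ble (Nat.succ i2) i3))

/-- constant sign, near -/
def nearI (K : ℕ) (v : ℕ → ℤ) (i0 i1 i2 i3 : ℕ) : Bool :=
  four K v i0 i1 i2 i3 && chkN (Nat.ble (Nat.succ i0) i1) (Nat.ble (Nat.succ i1) i2) (Nat.ble (Nat.succ i2) i3)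
    (sel v i0 true) (sel v i1 (Nat.ble (Nat.succ i0) i1)) (sel v i2 (Nat.ble (Nat.succ i1) i2))
    (sel v i3 (Nat.ble (Nat.succ i2) i3))

theorem ord_tick {K : ℕ} {a : ℕ → ℝ} (A : Tick K a) {i j : ℕ} (h : i ≤ j) :
    Ord (Nat.ble (Nat.succ i) j) (a i) (a j) := by
  refine ⟨fun hf => A.mono (by rw [Nat.ble_eq] at hf; exact hf), fun hf => ?_⟩
  have h1 : ¬ (i < j) := by
    intro hlt
    rw [show Nat.ble (Nat.succ i) j = true by rw [Nat.ble_eq]; exact hlt] at hf
    exact Bool.noConfusion hf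
  rw [show i = j by omega]

theorem lt_tick {K : ℕ} {a : ℕ → ℝ} (A : Tick K a) {i j : ℕ} (h : j < K) : a j < a i + 1 := by
  rw [← A.per i]; exact A.mono (by omega)

theorem one_lt_of_far {K : ℕ} {a : ℕ → ℝ} (A : Tick K a) {v : ℕ → ℤ} {i0 i1 i2 i3 : ℕ}
    (h : farI K v i0 i1 i2 i3 = true) : 1 < ‖vec K a v‖ := by
  unfold farI at h
  rw [Bool.and_eq_true] at h
  have h0 := h.1
  unfold four at h0
  simp only [Bool.and_eq_true, Nat.ble_eq] at h0
  obtain ⟨⟨⟨⟨h1, h2⟩, h3⟩, h4⟩, h5⟩ := h0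
  rw [vec_four h.1]
  exact far_of_chk (ord_tick A h1) (ord_tick A h2) (ord_tick A h3) (lt_tick A h4) h.2

theorem lt_one_of_near {K : ℕ} {a : ℕ → ℝ} (A : Tick K a) {v : ℕ → ℤ} {i0 i1 i2 i3 : ℕ}
    (h : nearI K v i0 i1 i2 i3 = true) : ‖vec K a v‖ < 1 := by
  unfold nearI at h
  rw [Bool.and_eq_true] at h
  have h0 := h.1
  unfold four at h0
  simp only [Bool.and_eq_true, Nat.ble_eq] at h0
  obtain ⟨⟨⟨⟨h1, h2⟩, h3⟩, h4⟩, h5⟩ := h0
  rw [vec_four h.1]
  exact near_of_chk (ord_tick A h1) (ord_tick A h2) (ord_tick A h3) (lt_tick A h4) h.2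

/-- the classes are found automatically -/
def farb (K : ℕ) (v : ℕ → ℤ) : Bool :=
  farI K v (fix0 K v) (fix1 K v (fix0 K v)) (fix1 K v (fix1 K v (fix0 K v)))
    (fix1 K v (fix1 K v (fix1 K v (fix0 K v))))

def nearb (K : ℕ) (v : ℕ → ℤ) : Bool :=
  nearI K v (fix0 K v) (fix1 K v (fix0 K v)) (fix1 K v (fix1 K v (fix0 K v)))
    (fix1 K v (fix1 K v (fix1 K v (fix0 K v))))

theorem farb_spec {K : ℕ} {a : ℕ → ℝ} (A : Tick K a) {v : ℕ → ℤ} (h : farb K v = true) : 1 < ‖vec K a v‖ :=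
  one_lt_of_far A h

theorem nearb_spec {K : ℕ} {a : ℕ → ℝ} (A : Tick K a) {v : ℕ → ℤ} (h : nearb K v = true) : ‖vec K a v‖ < 1 :=
  lt_one_of_near A h

/-! ### nodes -/

open Vale.Agent.P032.H357.MK (cf c0 c1 Yt dir_c)

/-- coordinates of a unit vector -/
def uzK (K t i : ℕ) : ℤ :=
  bif Nat.beq (Nat.div i 2) (Nat.mod t K) then
    (bif Nat.beq (Nat.mod i 2) 0 then (c0 (Nat.mod (Nat.div t K) 6) : ℤ) - 1
      else (c1 (Nat.mod (Nat.div t K) 6) : ℤ) - 1) else 0

/-- coordinates of `w - y - u(t)` -/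
def dv (K TC w y t i : ℕ) : ℤ := (cf K TC w i : ℤ) - (cf K TC y i : ℤ) - uzK K t i

theorem dir_uzK {K : ℕ} {a : ℕ → ℝ} (A : Tick K a) (t : ℕ) : vec K a (uzK K t) = dir (a t) := by
  have hK := A.pos
  have e1 : a t = a (t % K) + ((t / K % 6 : ℕ) : ℝ) + 6 * ((t / K / 6 : ℕ) : ℝ) := by
    have h1 := A.per_mul (t % K) (t / K)
    rw [show t % K + t / K * K = t by rw [Nat.mul_comm]; exact Nat.mod_add_div t K] at h1
    have h2 : ((t / K : ℕ) : ℝ) = ((t / K % 6 : ℕ) : ℝ) + 6 * ((t / K / 6 : ℕ) : ℝ) := by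
      have := Nat.mod_add_div (t / K) 6
      exact_mod_cast this.symm
    rw [h1, h2]; ring
  have e2 : dir (a t) = dir (a (t % K) + ((t / K % 6 : ℕ) : ℝ)) := by rw [e1, dir_per]
  rw [e2, dir_c (Nat.mod_lt _ (by norm_num))]
  unfold vec
  rw [Finset.sum_eq_single (t % K)]
  · unfold uzK eis
    have h1 : Nat.div (2 * (t % K)) 2 = t % K := by
      show 2 * (t % K) / 2 = t % K; omega
    have h2 : Nat.div (2 * (t % K) + 1) 2 = t % K := by
      show (2 * (t % K) + 1) / 2 = t % K; omega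
    have h3 : Nat.mod (2 * (t % K)) 2 = 0 := by
      show 2 * (t % K) % 2 = 0; omega
    have h4 : Nat.mod (2 * (t % K) + 1) 2 = 1 := by
      show (2 * (t % K) + 1) % 2 = 1; omega
    have h5 : Nat.mod t K = t % K := rfl
    have h6 : Nat.mod (Nat.div t K) 6 = t / K % 6 := rfl
    have h7 : Nat.beq (t % K) (t % K) = true := Nat.beq_refl _
    simp only [h1, h2, h3, h4, h5, h6, h7, cond_true, show Nat.beq 0 0 = true from rfl, show Nat.beq 1 0 = false from rfl,
      cond_false]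
    push_cast
    ring
  · intro r _ hr
    unfold uzK
    have h1 : Nat.div (2 * r) 2 = r := by
      show 2 * r / 2 = r; omega
    have h2 : Nat.div (2 * r + 1) 2 = r := by
      show (2 * r + 1) / 2 = r; omega
    have h5 : Nat.mod t K = t % K := rfl
    have h7 : Nat.beq r (t % K) = false := by
      rw [← Bool.not_eq_true, Nat.beq_eq]; exact hr
    simp only [h1, h2, h5, h7, cond_false, eis_zero, zero_mul]
  · intro h
    exact absurd (Finset.mem_range.2 (Nat.mod_lt _ hK)) h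

theorem dv_eq {K : ℕ} {a : ℕ → ℝ} (A : Tick K a) (TC w y t : ℕ) (z : ℂ) :
    Yt a K TC z w - (Yt a K TC z y + dir (a t)) = vec K a (dv K TC w y t) := by
  rw [← dir_uzK A t]
  unfold Yt vec dv
  have e : ∀ A B C : ℂ, z + A - (z + B + C) = A - (B + C) := fun A B C => by ring
  rw [e, ← Finset.sum_add_distrib, ← Finset.sum_sub_distrib]
  refine Finset.sum_congr rfl fun r _ => ?_
  unfold eis
  push_cast
  ring

/-- the circle about `w` crosses the arc of `S(y)` between the ticks `t` and `t'` in every position -/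
def xrc (K TC w y t t' : ℕ) : Bool :=
  (nearb K (dv K TC w y t) && farb K (dv K TC w y t')) || (farb K (dv K TC w y t) && nearb K (dv K TC w y t'))

/-- **the crossing from the table** -/
theorem cross_of_xrc {K : ℕ} {a : ℕ → ℝ} (A : Tick K a) {TC w y t t' : ℕ} (h : xrc K TC w y t t' = true) (z : ℂ) :
    Cross (Yt a K TC z w) (Yt a K TC z y) (a t) (a t') := by
  have e : ∀ s : ℕ, dist (Yt a K TC z w) (pt (Yt a K TC z y) (a s)) = ‖vec K a (dv K TC w y s)‖ := by
    intro s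
    rw [← dv_eq A TC w y s z, dist_eq_norm]
    rfl
  unfold xrc at h
  unfold Cross
  rw [e, e]
  rcases Bool.or_eq_true_iff.1 h with h1 | h1
  · rw [Bool.and_eq_true] at h1
    exact Or.inl ⟨nearb_spec A h1.1, farb_spec A h1.2⟩
  · rw [Bool.and_eq_true] at h1
    exact Or.inr ⟨farb_spec A h1.1, nearb_spec A h1.2⟩

end Vale.Agent.P032.H374.Sgn
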