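import Vale.Agent.P032.H374.Near
import Vale.Agent.P032.H357.MdT

/-!
# P032: constant signs of `|D| - 1`

`D = ∑ A_j dir (c_j)`, `A_j` in the ring of Eisenstein integers, `c_0 ≤ c_1 ≤ c_2 ≤ c_3 < c_0 + 1` (units of 60 degrees).  With
`s_j = √3 tan ((c_j - c_0) / 2)`, `x = s_1`, `y = s_2 - s_1`, `z = s_3 - s_2`, `e = 1 - s_3` the number
`(|D|² - 1) ∏ (3 + s_j²)` is a form of degree 6 in `x, y, z, e` with integer coefficients (84 monomials), linear in 13
integers.  If all coefficients have the same sign, the sign of `|D| - 1` is constant.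

* `far_of_chk`, `near_of_chk`;
* `farb`, `nearb` : the same for vectors of coordinates in `K` classes;
* `cross_of_xrc` : the hypothesis `Cross` of the crossing rule from the table of coordinates.
-/

open Set Filter Topology Metric

noncomputable section

namespace Vale.Agent.P032.H374.Sgn

open Vale.Agent.P032.Six Vale.Agent.P032.H892 Vale.Agent.P032.H913 Vale.Agent.P032.S5.H767

/-! ### linear combinations of lists -/

def dotR : List ℤ → List ℝ → ℝ
  | a :: l, m :: k => (a : ℝ) * m + dotR l k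
  | _, _ => 0

def addL : List ℤ → List ℤ → List ℤ
  | a :: l, b :: k => (a + b) :: addL l k
  | _, _ => []

def smL (c : ℤ) : List ℤ → List ℤ
  | a :: l => (c * a) :: smL c l
  | [] => []

theorem smL_length (c : ℤ) (l : List ℤ) : (smL c l).length = l.length := by
  induction l with
  | nil => rfl
  | cons a l ih => simp only [smL, List.length_cons, ih]

theorem addL_length : ∀ {l k : List ℤ}, l.length = k.length → (addL l k).length = k.length
  | [], [], _ => rfl
  | a :: l, b :: k, h => by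
    simp only [addL, List.length_cons]
    rw [addL_length (by simpa using h)]
  | [], b :: k, h => by simp at h
  | a :: l, [], h => by simp at h

theorem dotR_addL : ∀ {l k : List ℤ} (m : List ℝ), l.length = k.length → dotR (addL l k) m = dotR l m + dotR k m
  | [], [], m, _ => by cases m <;> simp [addL, dotR]
  | a :: l, b :: k, m, h => by
    cases m with
    | nil => simp [addL, dotR]
    | cons c m =>
      simp only [addL, dotR]
      rw [dotR_addL m (by simpa using h)]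
      push_cast; ring
  | [], b :: k, _, h => by simp at h
  | a :: l, [], _, h => by simp at h

theorem dotR_smL (c : ℤ) : ∀ (l : List ℤ) (m : List ℝ), dotR (smL c l) m = c * dotR l m
  | [], m => by cases m <;> simp [smL, dotR]
  | a :: l, m => by
    cases m with
    | nil => simp [smL, dotR]
    | cons b m =>
      simp only [smL, dotR]
      rw [dotR_smL c l m]
      push_cast; ring

/-- `∑ c_i l_i` -/
def lcL : List ℤ → List (List ℤ) → List ℤ → List ℤ
  | c :: cs, l :: ls, z => addL (smL c l) (lcL cs ls z)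
  | _, _, z => z

def lcR : List ℤ → List (List ℤ) → List ℝ → ℝ
  | c :: cs, l :: ls, m => c * dotR l m + lcR cs ls m
  | _, _, _ => 0

theorem lcL_length {n : ℕ} : ∀ (cs : List ℤ) (ls : List (List ℤ)) {z : List ℤ}, z.length = n →
    (∀ l ∈ ls, l.length = n) → (lcL cs ls z).length = n
  | [], _, z, hz, _ => by simp only [lcL]; exact hz
  | c :: cs, [], z, hz, _ => by simp only [lcL]; exact hz
  | c :: cs, l :: ls, z, hz, h => by
    simp only [lcL]
    have h1 := lcL_length cs ls hz fun k hk => h k (List.mem_cons_of_mem _ hk)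
    rw [addL_length, h1]
    rw [smL_length, h1]; exact h l List.mem_cons_self

theorem dotR_lcL {n : ℕ} (m : List ℝ) : ∀ (cs : List ℤ) (ls : List (List ℤ)) {z : List ℤ}, z.length = n →
    dotR z m = 0 → (∀ l ∈ ls, l.length = n) → dotR (lcL cs ls z) m = lcR cs ls m
  | [], _, z, _, h0, _ => by simp only [lcL, lcR]; exact h0
  | c :: cs, [], z, _, h0, _ => by simp only [lcL, lcR]; exact h0
  | c :: cs, l :: ls, z, hz, h0, h => by
    simp only [lcL, lcR]
    have h1 := lcL_length cs ls hz fun k hk => h k (List.mem_cons_of_mem _ hk)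
    rw [dotR_addL, dotR_smL, dotR_lcL m cs ls hz h0 fun k hk => h k (List.mem_cons_of_mem _ hk)]
    rw [smL_length, h1]; exact h l List.mem_cons_self

/-! ### the tables -/

/-- the exponents of the 84 monomials -/
def exs : List (ℕ × ℕ × ℕ × ℕ) :=
  [(6, 0, 0, 0), (5, 1, 0, 0), (5, 0, 1, 0), (5, 0, 0, 1), (4, 2, 0, 0), (4, 1, 1, 0), (4, 1, 0, 1), (4, 0, 2, 0),
  (4, 0, 1, 1), (4, 0, 0, 2), (3, 3, 0, 0), (3, 2, 1, 0), (3, 2, 0, 1), (3, 1, 2, 0), (3, 1, 1, 1), (3, 1, 0, 2), (3,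
  0, 3, 0), (3, 0, 2, 1), (3, 0, 1, 2), (3, 0, 0, 3), (2, 4, 0, 0), (2, 3, 1, 0), (2, 3, 0, 1), (2, 2, 2, 0), (2, 2,
  1, 1), (2, 2, 0, 2), (2, 1, 3, 0), (2, 1, 2, 1), (2, 1, 1, 2), (2, 1, 0, 3), (2, 0, 4, 0), (2, 0, 3, 1), (2, 0, 2,
  2), (2, 0, 1, 3), (2, 0, 0, 4), (1, 5, 0, 0), (1, 4, 1, 0), (1, 4, 0, 1), (1, 3, 2, 0), (1, 3, 1, 1), (1, 3, 0, 2),
  (1, 2, 3, 0), (1, 2, 2, 1), (1, 2, 1, 2), (1, 2, 0, 3), (1, 1, 4, 0), (1, 1, 3, 1), (1, 1, 2, 2), (1, 1, 1, 3), (1,
  1, 0, 4), (1, 0, 5, 0), (1, 0, 4, 1), (1, 0, 3, 2), (1, 0, 2, 3), (1, 0, 1, 4), (1, 0, 0, 5), (0, 6, 0, 0), (0, 5,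
  1, 0), (0, 5, 0, 1), (0, 4, 2, 0), (0, 4, 1, 1), (0, 4, 0, 2), (0, 3, 3, 0), (0, 3, 2, 1), (0, 3, 1, 2), (0, 3, 0,
  3), (0, 2, 4, 0), (0, 2, 3, 1), (0, 2, 2, 2), (0, 2, 1, 3), (0, 2, 0, 4), (0, 1, 5, 0), (0, 1, 4, 1), (0, 1, 3, 2),
  (0, 1, 2, 3), (0, 1, 1, 4), (0, 1, 0, 5), (0, 0, 6, 0), (0, 0, 5, 1), (0, 0, 4, 2), (0, 0, 3, 3), (0, 0, 2, 4), (0,
  0, 1, 5), (0, 0, 0, 6)]

def col0 : List ℤ :=
  [64, 352, 320, 288, 816, 1488, 1344, 688, 1248, 576, 1024, 2808, 2544, 2600, 4728, 2184, 816, 2232, 2064, 648, 736,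
  2696, 2448, 3748, 6828, 3156, 2352, 6444, 5964, 1872, 564, 2064, 2868, 1800, 432, 288, 1320, 1200, 2448, 4464,
  2064, 2304, 6318, 5850, 1836, 1104, 4044, 5622, 3528, 846, 216, 990, 1836, 1728, 828, 162, 48, 264, 240, 612, 1116,
  516, 768, 2106, 1950, 612, 552, 2022, 2811, 1764, 423, 216, 990, 1836, 1728, 828, 162, 36, 198, 459, 576, 414, 162,
  27]

def col1 : List ℤ :=
  [32, 224, 208, 192, 624, 1152, 1056, 536, 984, 456, 896, 2472, 2256, 2296, 4200, 1944, 720, 1980, 1836, 576, 704,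
  2584, 2352, 3596, 6564, 3036, 2256, 6192, 5736, 1800, 540, 1980, 2754, 1728, 414, 288, 1320, 1200, 2448, 4464,
  2064, 2304, 6318, 5850, 1836, 1104, 4044, 5622, 3528, 846, 216, 990, 1836, 1728, 828, 162, 48, 264, 240, 612, 1116,
  516, 768, 2106, 1950, 612, 552, 2022, 2811, 1764, 423, 216, 990, 1836, 1728, 828, 162, 36, 198, 459, 576, 414, 162,
  27]

def col2 : List ℤ :=
  [-96, -480, -432, -384, -960, -1728, -1536, -792, -1416, -648, -960, -2592, -2304, -2376, -4248, -1944, -744,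
  -2004, -1836, -576, -480, -1728, -1536, -2376, -4248, -1944, -1488, -4008, -3672, -1152, -360, -1296, -1782, -1116,
  -270, -96, -432, -384, -792, -1416, -648, -744, -2004, -1836, -576, -360, -1296, -1782, -1116, -270, -72, -324,
  -594, -558, -270, -54, 0, 0, 0, 0, 0, 0, 0, 0, 0, 0, 0, 0, 0, 0, 0, 0, 0, 0, 0, 0, 0, 0, 0, 0, 0, 0, 0, 0]

def col3 : List ℤ :=
  [32, 176, 208, 192, 408, 960, 888, 536, 984, 456, 512, 1800, 1668, 2008, 3696, 1716, 720, 1980, 1836, 576, 368,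
  1720, 1596, 2876, 5304, 2466, 2064, 5688, 5280, 1656, 540, 1980, 2754, 1728, 414, 144, 840, 780, 1872, 3456, 1608,
  2016, 5562, 5166, 1620, 1056, 3876, 5394, 3384, 810, 216, 990, 1836, 1728, 828, 162, 24, 168, 156, 468, 864, 402,
  672, 1854, 1722, 540, 528, 1938, 2697, 1692, 405, 216, 990, 1836, 1728, 828, 162, 36, 198, 459, 576, 414, 162, 27]

def col4 : List ℤ :=
  [-96, -528, -432, -384, -1224, -2016, -1800, -792, -1416, -648, -1536, -3816, -3420, -3024, -5424, -2484, -744,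
  -2004, -1836, -576, -1104, -3672, -3300, -4392, -7896, -3618, -2184, -5892, -5400, -1692, -360, -1296, -1782,
  -1116, -270, -432, -1800, -1620, -2880, -5184, -2376, -2160, -5832, -5346, -1674, -720, -2592, -3564, -2232, -540,
  -72, -324, -594, -558, -270, -54, -72, -360, -324, -720, -1296, -594, -720, -1944, -1782, -558, -360, -1296, -1782,
  -1116, -270, -72, -324, -594, -558, -270, -54, 0, 0, 0, 0, 0, 0, 0]

def col5 : List ℤ :=
  [32, 176, 160, 192, 408, 744, 888, 344, 816, 456, 512, 1404, 1668, 1300, 3072, 1716, 408, 1440, 1608, 576, 368,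
  1348, 1596, 1874, 4416, 2466, 1176, 4140, 4620, 1656, 282, 1320, 2208, 1584, 414, 144, 660, 780, 1224, 2880, 1608,
  1152, 4050, 4518, 1620, 552, 2580, 4314, 3096, 810, 108, 630, 1404, 1512, 792, 162, 24, 132, 156, 306, 720, 402,
  384, 1350, 1506, 540, 276, 1290, 2157, 1548, 405, 108, 630, 1404, 1512, 792, 162, 18, 126, 351, 504, 396, 162, 27]

def col6 : List ℤ :=
  [-96, -528, -480, -384, -1224, -2232, -1800, -1032, -1680, -648, -1536, -4212, -3420, -3900, -6384, -2484, -1224,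
  -3024, -2376, -576, -1104, -4044, -3300, -5622, -9240, -3618, -3528, -8748, -6912, -1692, -846, -2808, -3348,
  -1656, -270, -432, -1980, -1620, -3672, -6048, -2376, -3456, -8586, -6804, -1674, -1656, -5508, -6588, -3276, -540,
  -324, -1350, -2160, -1620, -540, -54, -72, -396, -324, -918, -1512, -594, -1152, -2862, -2268, -558, -828, -2754,
  -3294, -1638, -270, -324, -1350, -2160, -1620, -540, -54, -54, -270, -540, -540, -270, -54, 0]

def col7 : List ℤ :=
  [64, 352, 320, 288, 792, 1488, 1344, 688, 1248, 576, 928, 2712, 2460, 2600, 4728, 2184, 816, 2232, 2064, 648, 592,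
  2408, 2196, 3604, 6576, 3042, 2352, 6444, 5964, 1872, 564, 2064, 2868, 1800, 432, 192, 1032, 948, 2160, 3960, 1836,
  2208, 6066, 5622, 1764, 1104, 4044, 5622, 3528, 846, 216, 990, 1836, 1728, 828, 162, 24, 168, 156, 468, 864, 402,
  672, 1854, 1722, 540, 528, 1938, 2697, 1692, 405, 216, 990, 1836, 1728, 828, 162, 36, 198, 459, 576, 414, 162, 27]

def col8 : List ℤ :=
  [0, -96, 0, 0, -456, -432, -384, 0, 0, 0, -864, -1656, -1476, -792, -1416, -648, 0, 0, 0, 0, -816, -2376, -2124,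
  -2304, -4128, -1890, -744, -2004, -1836, -576, 0, 0, 0, 0, 0, -384, -1512, -1356, -2232, -4008, -1836, -1464,
  -3948, -3618, -1134, -360, -1296, -1782, -1116, -270, 0, 0, 0, 0, 0, 0, -72, -360, -324, -720, -1296, -594, -720,
  -1944, -1782, -558, -360, -1296, -1782, -1116, -270, -72, -324, -594, -558, -270, -54, 0, 0, 0, 0, 0, 0, 0]

def col9 : List ℤ :=
  [64, 352, 320, 288, 792, 1440, 1344, 664, 1248, 576, 928, 2532, 2460, 2336, 4560, 2184, 732, 2148, 2064, 648, 592,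
  2156, 2196, 2986, 6096, 3042, 1872, 5736, 5736, 1872, 450, 1836, 2754, 1800, 432, 192, 876, 948, 1620, 3504, 1836,
  1524, 4938, 5178, 1764, 732, 3156, 4962, 3384, 846, 144, 774, 1620, 1656, 828, 162, 24, 132, 156, 306, 720, 402,
  384, 1350, 1506, 540, 276, 1290, 2157, 1548, 405, 108, 630, 1404, 1512, 792, 162, 18, 126, 351, 504, 396, 162, 27]

def col10 : List ℤ :=
  [0, -96, -96, 0, -456, -864, -384, -408, -384, 0, -864, -2412, -1476, -2256, -2832, -648, -708, -1356, -648, 0,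
  -816, -3012, -2124, -4206, -6024, -1890, -2640, -5736, -3672, -576, -630, -1836, -1782, -576, 0, -384, -1764,
  -1356, -3276, -5088, -1836, -3084, -7242, -5292, -1134, -1476, -4644, -5130, -2232, -270, -288, -1134, -1674,
  -1098, -270, 0, -72, -396, -324, -918, -1512, -594, -1152, -2862, -2268, -558, -828, -2754, -3294, -1638, -270,
  -324, -1350, -2160, -1620, -540, -54, -54, -270, -540, -540, -270, -54, 0]

def col11 : List ℤ :=
  [64, 352, 320, 288, 816, 1488, 1344, 664, 1248, 576, 1024, 2808, 2544, 2516, 4728, 2184, 732, 2148, 2064, 648, 736,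
  2696, 2448, 3634, 6828, 3156, 2124, 6216, 5964, 1872, 450, 1836, 2754, 1800, 432, 288, 1320, 1200, 2376, 4464,
  2064, 2088, 6102, 5850, 1836, 888, 3612, 5406, 3528, 846, 144, 774, 1620, 1656, 828, 162, 48, 264, 240, 594, 1116,
  516, 696, 2034, 1950, 612, 444, 1806, 2703, 1764, 423, 144, 774, 1620, 1656, 828, 162, 18, 126, 351, 504, 396, 162,
  27]

def col12 : List ℤ :=
  [0, 0, -96, 0, 0, -432, 0, -408, -384, 0, 0, -792, 0, -1500, -1416, 0, -708, -1356, -648, 0, 0, -744, 0, -2118,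
  -2004, 0, -2004, -3840, -1836, 0, -630, -1836, -1782, -576, 0, 0, -360, 0, -1368, -1296, 0, -1944, -3726, -1782, 0,
  -1224, -3564, -3456, -1116, 0, -288, -1134, -1674, -1098, -270, 0, 0, -72, 0, -342, -324, 0, -648, -1242, -594, 0,
  -612, -1782, -1728, -558, 0, -288, -1134, -1674, -1098, -270, 0, -54, -270, -540, -540, -270, -54, 0]
/-- the columns -/
def cols : List (List ℤ) := [col0, col1, col2, col3, col4, col5, col6, col7, col8, col9, col10, col11, col12]

def zer : List ℤ := List.replicate 84 0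

/-- the monomials -/
def mons (x y z e : ℝ) : List ℝ := exs.map fun m => x ^ m.1 * y ^ m.2.1 * z ^ m.2.2.1 * e ^ m.2.2.2

/-! ### the check of signs -/

/-- the monomial does not vanish -/
def sup (f1 f2 f3 : Bool) (m : ℕ × ℕ × ℕ × ℕ) : Bool :=
  (Nat.beq m.1 0 || f1) && (Nat.beq m.2.1 0 || f2) && (Nat.beq m.2.2.1 0 || f3)

/-- all coefficients of nonvanishing monomials are nonnegative -/
def nn (f1 f2 f3 : Bool) : List ℤ → List (ℕ × ℕ × ℕ × ℕ) → Bool
  | a :: l, m :: k => (!(sup f1 f2 f3 m) || decide (0 ≤ a)) && nn f1 f2 f3 l k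
  | _, _ => true

/-- some of them is positive -/
def ps (f1 f2 f3 : Bool) : List ℤ → List (ℕ × ℕ × ℕ × ℕ) → Bool
  | a :: l, m :: k => (sup f1 f2 f3 m && decide (0 < a)) || ps f1 f2 f3 l k
  | _, _ => false

section
variable {f1 f2 f3 : Bool} {x y z e : ℝ}

/-- the flags: `true` = positive, `false` = zero -/
def Fl (f : Bool) (x : ℝ) : Prop := (f = true → 0 < x) ∧ (f = false → x = 0)

theorem Fl.nonneg {f : Bool} {x : ℝ} (h : Fl f x) : 0 ≤ x := by
  cases f with
  | false => exact (h.2 rfl).ge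
  | true => exact (h.1 rfl).le

theorem Fl.pow_pos {f : Bool} {x : ℝ} (h : Fl f x) {n : ℕ} (hs : (Nat.beq n 0 || f) = true) : 0 < x ^ n := by
  rcases Bool.or_eq_true_iff.1 hs with h1 | h1
  · rw [Nat.eq_of_beq_eq_true h1, pow_zero]; exact one_pos
  · exact _root_.pow_pos (h.1 h1) n

theorem Fl.pow_zero' {f : Bool} {x : ℝ} (h : Fl f x) {n : ℕ} (hs : (Nat.beq n 0 || f) = false) : x ^ n = 0 := by
  rw [Bool.or_eq_false_iff] at hs
  rw [h.2 hs.2, zero_pow]
  rintro rfl
  exact absurd hs.1 (by decide)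

theorem mon_pos (h1 : Fl f1 x) (h2 : Fl f2 y) (h3 : Fl f3 z) (he : 0 < e) {m : ℕ × ℕ × ℕ × ℕ}
    (hs : sup f1 f2 f3 m = true) : 0 < x ^ m.1 * y ^ m.2.1 * z ^ m.2.2.1 * e ^ m.2.2.2 := by
  unfold sup at hs
  rw [Bool.and_eq_true, Bool.and_eq_true] at hs
  obtain ⟨⟨a1, a2⟩, a3⟩ := hs
  exact mul_pos (mul_pos (mul_pos (h1.pow_pos a1) (h2.pow_pos a2)) (h3.pow_pos a3)) (pow_pos he _)

theorem mon_zero (h1 : Fl f1 x) (h2 : Fl f2 y) (h3 : Fl f3 z) {m : ℕ × ℕ × ℕ × ℕ}
    (hs : sup f1 f2 f3 m = false) : x ^ m.1 * y ^ m.2.1 * z ^ m.2.2.1 * e ^ m.2.2.2 = 0 := by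
  unfold sup at hs
  rw [Bool.and_eq_false_iff, Bool.and_eq_false_iff] at hs
  rcases hs with (a1 | a1) | a1
  · rw [h1.pow_zero' a1]; ring
  · rw [h2.pow_zero' a1]; ring
  · rw [h3.pow_zero' a1]; ring

theorem dot_nonneg (h1 : Fl f1 x) (h2 : Fl f2 y) (h3 : Fl f3 z) (he : 0 < e) :
    ∀ {l : List ℤ} {k : List (ℕ × ℕ × ℕ × ℕ)}, nn f1 f2 f3 l k = true →
      0 ≤ dotR l (k.map fun m => x ^ m.1 * y ^ m.2.1 * z ^ m.2.2.1 * e ^ m.2.2.2)
  | [], k, _ => by simp [dotR]
  | a :: l, [], _ => by simp [dotR]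
  | a :: l, m :: k, h => by
    simp only [nn, Bool.and_eq_true] at h
    simp only [List.map_cons, dotR]
    refine add_nonneg ?_ (dot_nonneg h1 h2 h3 he h.2)
    rcases Bool.or_eq_true_iff.1 h.1 with h4 | h4
    · rw [mon_zero h1 h2 h3 (by simpa using h4), mul_zero]
    · rcases hs : sup f1 f2 f3 m with _ | _
      · rw [mon_zero h1 h2 h3 hs, mul_zero]
      · exact mul_nonneg (by exact_mod_cast of_decide_eq_true h4) (mon_pos h1 h2 h3 he hs).le

theorem dot_pos (h1 : Fl f1 x) (h2 : Fl f2 y) (h3 : Fl f3 z) (he : 0 < e) :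
    ∀ {l : List ℤ} {k : List (ℕ × ℕ × ℕ × ℕ)}, nn f1 f2 f3 l k = true → ps f1 f2 f3 l k = true →
      0 < dotR l (k.map fun m => x ^ m.1 * y ^ m.2.1 * z ^ m.2.2.1 * e ^ m.2.2.2)
  | [], k, _, h => by simp [ps] at h
  | a :: l, [], _, h => by simp [ps] at h
  | a :: l, m :: k, h, h' => by
    have hn := dot_nonneg h1 h2 h3 he h
    simp only [nn, Bool.and_eq_true] at h
    simp only [List.map_cons, dotR] at hn ⊢
    simp only [ps] at h'
    rcases Bool.or_eq_true_iff.1 h' with h4 | h4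
    · rw [Bool.and_eq_true] at h4
      exact add_pos_of_pos_of_nonneg (mul_pos (by exact_mod_cast of_decide_eq_true h4.2) (mon_pos h1 h2 h3 he h4.1))
        (dot_nonneg h1 h2 h3 he h.2)
    · refine add_pos_of_nonneg_of_pos ?_ (dot_pos h1 h2 h3 he h.2 h4)
      rcases Bool.or_eq_true_iff.1 h.1 with h5 | h5
      · rw [mon_zero h1 h2 h3 (by simpa using h5), mul_zero]
      · rcases hs : sup f1 f2 f3 m with _ | _
        · rw [mon_zero h1 h2 h3 hs, mul_zero]
        · exact mul_nonneg (by exact_mod_cast of_decide_eq_true h5) (mon_pos h1 h2 h3 he hs).le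

end

/-! ### the basis -/

section
variable (x y z e : ℝ)
theorem bas0 : dotR col0 (mons x y z e) = (3 * (x + y + z + e) ^ 2 + x ^ 2) * (3 * (x + y + z + e) ^ 2 + (x + y) ^ 2) * (3 * (x + y + z + e) ^ 2 + (x + y + z) ^ 2) := by
  simp only [mons, exs, col0, List.map_cons, List.map_nil, dotR]
  push_cast
  ring

theorem bas1 : dotR col1 (mons x y z e) = (3 * (x + y + z + e) ^ 2 - x ^ 2) * ((3 * (x + y + z + e) ^ 2 + (x + y) ^ 2) * (3 * (x + y + z + e) ^ 2 + (x + y + z) ^ 2)) := by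
  simp only [mons, exs, col1, List.map_cons, List.map_nil, dotR]
  push_cast
  ring

theorem bas2 : dotR col2 (mons x y z e) = -((6 * x * (x + y + z + e)) * ((3 * (x + y + z + e) ^ 2 + (x + y) ^ 2) * (3 * (x + y + z + e) ^ 2 + (x + y + z) ^ 2))) := by
  simp only [mons, exs, col2, List.map_cons, List.map_nil, dotR]
  push_cast
  ring

theorem bas3 : dotR col3 (mons x y z e) = (3 * (x + y + z + e) ^ 2 - (x + y) ^ 2) * ((3 * (x + y + z + e) ^ 2 + x ^ 2) * (3 * (x + y + z + e) ^ 2 + (x + y + z) ^ 2)) := by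
  simp only [mons, exs, col3, List.map_cons, List.map_nil, dotR]
  push_cast
  ring

theorem bas4 : dotR col4 (mons x y z e) = -((6 * (x + y) * (x + y + z + e)) * ((3 * (x + y + z + e) ^ 2 + x ^ 2) * (3 * (x + y + z + e) ^ 2 + (x + y + z) ^ 2))) := by
  simp only [mons, exs, col4, List.map_cons, List.map_nil, dotR]
  push_cast
  ring

theorem bas5 : dotR col5 (mons x y z e) = (3 * (x + y + z + e) ^ 2 - (x + y + z) ^ 2) * ((3 * (x + y + z + e) ^ 2 + x ^ 2) * (3 * (x + y + z + e) ^ 2 + (x + y) ^ 2)) := by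
  simp only [mons, exs, col5, List.map_cons, List.map_nil, dotR]
  push_cast
  ring

theorem bas6 : dotR col6 (mons x y z e) = -((6 * (x + y + z) * (x + y + z + e)) * ((3 * (x + y + z + e) ^ 2 + x ^ 2) * (3 * (x + y + z + e) ^ 2 + (x + y) ^ 2))) := by
  simp only [mons, exs, col6, List.map_cons, List.map_nil, dotR]
  push_cast
  ring

theorem bas7 : dotR col7 (mons x y z e) = ((3 * (x + y + z + e) ^ 2 - x ^ 2) * (3 * (x + y + z + e) ^ 2 - (x + y) ^ 2) + (6 * x * (x + y + z + e)) * (6 * (x + y) * (x + y + z + e)) / 3) * (3 * (x + y + z + e) ^ 2 + (x + y + z) ^ 2) := by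
  simp only [mons, exs, col7, List.map_cons, List.map_nil, dotR]
  push_cast
  ring

theorem bas8 : dotR col8 (mons x y z e) = -(((6 * (x + y) * (x + y + z + e)) * (3 * (x + y + z + e) ^ 2 - x ^ 2) - (6 * x * (x + y + z + e)) * (3 * (x + y + z + e) ^ 2 - (x + y) ^ 2)) * (3 * (x + y + z + e) ^ 2 + (x + y + z) ^ 2)) := by
  simp only [mons, exs, col8, List.map_cons, List.map_nil, dotR]
  push_cast
  ring

theorem bas9 : dotR col9 (mons x y z e) = ((3 * (x + y + z + e) ^ 2 - x ^ 2) * (3 * (x + y + z + e) ^ 2 - (x + y + z) ^ 2) + (6 * x * (x + y + z + e)) * (6 * (x + y + z) * (x + y + z + e)) / 3) * (3 * (x + y + z + e) ^ 2 + (x + y) ^ 2) := by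
  simp only [mons, exs, col9, List.map_cons, List.map_nil, dotR]
  push_cast
  ring

theorem bas10 : dotR col10 (mons x y z e) = -(((6 * (x + y + z) * (x + y + z + e)) * (3 * (x + y + z + e) ^ 2 - x ^ 2) - (6 * x * (x + y + z + e)) * (3 * (x + y + z + e) ^ 2 - (x + y + z) ^ 2)) * (3 * (x + y + z + e) ^ 2 + (x + y) ^ 2)) := by
  simp only [mons, exs, col10, List.map_cons, List.map_nil, dotR]
  push_cast
  ring

theorem bas11 : dotR col11 (mons x y z e) = ((3 * (x + y + z + e) ^ 2 - (x + y) ^ 2) * (3 * (x + y + z + e) ^ 2 - (x + y + z) ^ 2) + (6 * (x + y) * (x + y + z + e)) * (6 * (x + y + z) * (x + y + z + e)) / 3) * (3 * (x + y + z + e) ^ 2 + x ^ 2) := by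
  simp only [mons, exs, col11, List.map_cons, List.map_nil, dotR]
  push_cast
  ring

theorem bas12 : dotR col12 (mons x y z e) = -(((6 * (x + y + z) * (x + y + z + e)) * (3 * (x + y + z + e) ^ 2 - (x + y) ^ 2) - (6 * (x + y) * (x + y + z + e)) * (3 * (x + y + z + e) ^ 2 - (x + y + z) ^ 2)) * (3 * (x + y + z + e) ^ 2 + x ^ 2)) := by
  simp only [mons, exs, col12, List.map_cons, List.map_nil, dotR]
  push_cast
  ring

end
end Vale.Agent.P032.H374.Sgn
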